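import Vale.Agent.P156.H877.Dens
import Mathlib.Analysis.Matrix.Order

/-!
# The Gaussian kernel: bounds, linear images of the standard Gaussian, marginals
-/

open MeasureTheory Matrix Filter Topology ProbabilityTheory
open scoped ENNReal MatrixOrder

noncomputable section

namespace Vale.Agent.P156.H877

variable {ι κ : Type*} [Fintype ι] [DecidableEq ι] [Fintype κ] [DecidableEq κ]

/-! ### quadratic forms -/

omit [DecidableEq ι] in
theorem abs_quad_le (M : Matrix ι ι ℝ) (y : ι → ℝ) :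
    |y ⬝ᵥ (M *ᵥ y)| ≤ (∑ i, ∑ j, |M i j|) * ‖y‖ ^ 2 := by
  have h : y ⬝ᵥ (M *ᵥ y) = ∑ i, ∑ j, y i * (M i j * y j) := by
    simp [dotProduct, mulVec, Finset.mul_sum]
  rw [h, Finset.sum_mul]
  refine (Finset.abs_sum_le_sum_abs _ _).trans (Finset.sum_le_sum fun i _ => ?_)
  rw [Finset.sum_mul]
  refine (Finset.abs_sum_le_sum_abs _ _).trans (Finset.sum_le_sum fun j _ => ?_)
  rw [abs_mul, abs_mul]
  have h1 : |y i| ≤ ‖y‖ := norm_le_pi_norm y i
  have h2 : |y j| ≤ ‖y‖ := norm_le_pi_norm y j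
  calc |y i| * (|M i j| * |y j|) = |M i j| * (|y i| * |y j|) := by ring
    _ ≤ |M i j| * (‖y‖ * ‖y‖) := by gcongr
    _ = _ := by ring

omit [DecidableEq ι] in
theorem quad_lower {M : Matrix ι ι ℝ} (hM : M.PosDef) :
    ∃ a > 0, ∀ y : ι → ℝ, a * ‖y‖ ^ 2 ≤ y ⬝ᵥ (M *ᵥ y) := by
  have hcont : Continuous fun y : ι → ℝ => y ⬝ᵥ (M *ᵥ y) := by
    simp only [dotProduct, mulVec]
    fun_prop
  have hpos : ∀ y : ι → ℝ, y ≠ 0 → 0 < y ⬝ᵥ (M *ᵥ y) := fun y hy => by
    have := hM.dotProduct_mulVec_pos hy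
    simpa using this
  rcases (Metric.sphere (0 : ι → ℝ) 1).eq_empty_or_nonempty with he | hne
  · refine ⟨1, one_pos, fun y => ?_⟩
    have hy : y = 0 := by
      by_contra hy
      have : (‖y‖⁻¹ • y) ∈ Metric.sphere (0 : ι → ℝ) 1 := by
        simp [norm_smul, inv_mul_cancel₀ (norm_ne_zero_iff.2 hy)]
      rw [he] at this
      exact this
    simp [hy]
  · obtain ⟨y0, hy0, hmin⟩ := (isCompact_sphere (0 : ι → ℝ) 1).exists_isMinOn hne
      hcont.continuousOn
    have hy00 : y0 ≠ 0 := by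
      intro h
      simp [h] at hy0
    refine ⟨y0 ⬝ᵥ (M *ᵥ y0), hpos y0 hy00, fun y => ?_⟩
    rcases eq_or_ne y 0 with rfl | hy
    · simp
    · have hn : 0 < ‖y‖ := norm_pos_iff.2 hy
      have h1 : (‖y‖⁻¹ • y) ∈ Metric.sphere (0 : ι → ℝ) 1 := by
        simp [norm_smul, inv_mul_cancel₀ hn.ne']
      have h2 := hmin h1
      simp only [Set.mem_ofPred_eq, smul_dotProduct, mulVec_smul, dotProduct_smul,
        smul_eq_mul] at h2
      calc y0 ⬝ᵥ (M *ᵥ y0) * ‖y‖ ^ 2 ≤ (‖y‖⁻¹ * (‖y‖⁻¹ * (y ⬝ᵥ (M *ᵥ y)))) * ‖y‖ ^ 2 := by gcongr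
        _ = y ⬝ᵥ (M *ᵥ y) := by field_simp

/-! ### the standard Gaussian -/

/-- The standard Gaussian on `κ → ℝ`. -/
abbrev sg (κ : Type*) [Fintype κ] : Measure (κ → ℝ) := Measure.pi fun _ => gaussianReal 0 1

theorem pi_withDensity' {ι : Type*} [Fintype ι] {X : ι → Type*} [∀ i, MeasurableSpace (X i)]
    (μ : ∀ i, Measure (X i)) [∀ i, SigmaFinite (μ i)] (f : ∀ i, X i → ℝ)
    (h0 : ∀ i x, 0 ≤ f i x) (hi : ∀ i, Integrable (f i) (μ i)) :
    (Measure.pi fun i => (μ i).withDensity fun x => ENNReal.ofReal (f i x))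
      = (Measure.pi μ).withDensity fun y => ENNReal.ofReal (∏ i, f i (y i)) := by
  have hsf : ∀ i, IsFiniteMeasure ((μ i).withDensity fun x => ENNReal.ofReal (f i x)) := fun i =>
    isFiniteMeasure_withDensity_ofReal (hi i).2
  refine Measure.pi_eq fun s hs => ?_
  rw [withDensity_apply _ (MeasurableSet.univ_pi hs), Measure.restrict_pi_pi,
    ← ofReal_integral_eq_lintegral_ofReal, integral_fintype_prod_eq_prod,
    ENNReal.ofReal_prod_of_nonneg]
  · refine Finset.prod_congr rfl fun i _ => ?_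
    rw [withDensity_apply _ (hs i), ← ofReal_integral_eq_lintegral_ofReal]
    · exact (hi i).restrict
    · exact ae_of_all _ (h0 i)
  · exact fun i _ => integral_nonneg (h0 i)
  · exact Integrable.fintype_prod_dep fun i => (hi i).restrict
  · exact ae_of_all _ fun y => Finset.prod_nonneg fun i _ => h0 i _

theorem sqrt_pow' {a : ℝ} (ha : 0 ≤ a) (n : ℕ) : √a ^ n = √(a ^ n) := by
  rw [← Real.sqrt_sq (by positivity : (0:ℝ) ≤ √a ^ n), ← pow_mul, mul_comm n 2, pow_mul,
    Real.sq_sqrt ha]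

omit [DecidableEq κ] in
theorem sg_eq : sg κ = volume.withDensity fun x => ENNReal.ofReal
    ((√((2 * Real.pi) ^ (Fintype.card κ)))⁻¹ * Real.exp (-(x ⬝ᵥ x) / 2)) := by
  have h1 : (gaussianReal 0 1 : Measure ℝ)
      = volume.withDensity fun x => ENNReal.ofReal (gaussianPDFReal 0 1 x) := by
    rw [gaussianReal_of_var_ne_zero _ one_ne_zero]
    rfl
  have h2 := pi_withDensity' (fun _ : κ => (volume : Measure ℝ)) (fun _ => gaussianPDFReal 0 1)
    (fun _ x => gaussianPDFReal_nonneg _ _ x) (fun _ => integrable_gaussianPDFReal _ _)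
  rw [← h1] at h2
  rw [sg, h2, ← volume_pi]
  congr 1
  funext x
  congr 1
  simp only [gaussianPDFReal, NNReal.coe_one, mul_one, sub_zero, Finset.prod_mul_distrib,
    Finset.prod_const, Finset.card_univ]
  rw [← Real.exp_sum, inv_pow, sqrt_pow' (by positivity : (0:ℝ) ≤ 2 * Real.pi)]
  congr 2
  simp only [dotProduct, ← Finset.sum_neg_distrib, Finset.sum_div]
  refine Finset.sum_congr rfl fun i _ => ?_
  ring

/-- The image of the standard Gaussian under an invertible matrix. -/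
theorem map_sg_square (B : Matrix ι ι ℝ) (hB : B.det ≠ 0) :
    (sg ι).map (fun x => B *ᵥ x)
      = volume.withDensity fun y => ENNReal.ofReal (gk (B * Bᵀ) y) := by
  have hunit : IsUnit B.det := isUnit_iff_ne_zero.2 hB
  have hmeas : Measurable fun x : ι → ℝ => B *ᵥ x := by
    have : Continuous fun x : ι → ℝ => B *ᵥ x := by fun_prop
    exact this.measurable
  have hgm : Measurable fun y : ι → ℝ => ENNReal.ofReal (gk (B * Bᵀ) y) := by
    have : Continuous fun y : ι → ℝ => gk (B * Bᵀ) y := by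
      unfold gk
      fun_prop
    exact this.measurable.ennreal_ofReal
  have hvol : Measure.map (fun x : ι → ℝ => B *ᵥ x) volume
      = ENNReal.ofReal |(B.det)⁻¹| • volume := by
    exact Real.map_matrix_volume_pi_eq_smul_volume_pi hB
  ext A hA
  rw [Measure.map_apply hmeas hA, sg_eq, withDensity_apply _ (hmeas hA), withDensity_apply _ hA]
  have hpt : ∀ x : ι → ℝ, ENNReal.ofReal
      ((√((2 * Real.pi) ^ (Fintype.card ι)))⁻¹ * Real.exp (-(x ⬝ᵥ x) / 2))
      = ENNReal.ofReal |B.det| * ENNReal.ofReal (gk (B * Bᵀ) (B *ᵥ x)) := by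
    intro x
    rw [← ENNReal.ofReal_mul (abs_nonneg _)]
    congr 1
    have h1 : (B *ᵥ x) ⬝ᵥ ((B * Bᵀ)⁻¹ *ᵥ (B *ᵥ x)) = x ⬝ᵥ x := by
      rw [Matrix.mul_inv_rev, Matrix.mulVec_mulVec, Matrix.mul_assoc,
        Matrix.nonsing_inv_mul _ hunit, Matrix.mul_one, Matrix.dotProduct_mulVec,
        ← Matrix.mulVec_transpose, ← Matrix.transpose_nonsing_inv, Matrix.transpose_transpose,
        Matrix.mulVec_mulVec, Matrix.nonsing_inv_mul _ hunit, Matrix.one_mulVec]
    have h2 : √((2 * Real.pi) ^ (Fintype.card ι) * (B * Bᵀ).det)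
        = √((2 * Real.pi) ^ (Fintype.card ι)) * |B.det| := by
      rw [Matrix.det_mul, Matrix.det_transpose, Real.sqrt_mul (by positivity),
        Real.sqrt_mul_self_eq_abs]
    rw [gk, h1, h2, mul_inv]
    have : |B.det| ≠ 0 := abs_ne_zero.2 hB
    field_simp
  simp_rw [hpt]
  rw [lintegral_const_mul (ENNReal.ofReal |B.det|)
    (f := fun x => ENNReal.ofReal (gk (B * Bᵀ) (B *ᵥ x))) (hgm.comp hmeas)]
  have h3 : ∫⁻ x in (fun x : ι → ℝ => B *ᵥ x) ⁻¹' A, ENNReal.ofReal (gk (B * Bᵀ) (B *ᵥ x))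
      = ∫⁻ y in A, ENNReal.ofReal (gk (B * Bᵀ) y) ∂(Measure.map (fun x : ι → ℝ => B *ᵥ x) volume) := by
    rw [setLIntegral_map hA hgm hmeas]
  rw [h3, hvol, Measure.restrict_smul, lintegral_smul_measure, smul_eq_mul, ← mul_assoc,
    ← ENNReal.ofReal_mul (abs_nonneg _), ← abs_mul, mul_inv_cancel₀ hB, abs_one,
    ENNReal.ofReal_one, one_mul]

omit [DecidableEq κ] in
theorem charfun_sg (c : κ → ℝ) :
    ∫ x, Complex.exp ((∑ j, c j * x j : ℝ) * Complex.I) ∂(sg κ)
      = Complex.exp (-(∑ j, c j ^ 2 : ℝ) / 2) := by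
  have h1 : ∀ x : κ → ℝ, Complex.exp ((∑ j, c j * x j : ℝ) * Complex.I)
      = ∏ j, Complex.exp (c j * x j * Complex.I) := by
    intro x
    rw [← Complex.exp_sum]
    congr 1
    push_cast
    rw [Finset.sum_mul]
  simp_rw [h1]
  rw [integral_fintype_prod_eq_prod (f := fun j (x : ℝ) => Complex.exp (c j * x * Complex.I))]
  have h2 : ∀ j, ∫ x : ℝ, Complex.exp (c j * x * Complex.I) ∂(gaussianReal 0 1)
      = Complex.exp (-(c j : ℂ) ^ 2 / 2) := by
    intro j
    have := charFun_gaussianReal (μ := 0) (v := 1) (c j)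
    rw [charFun_apply_real] at this
    rw [this]
    congr 1
    push_cast
    ring
  simp_rw [h2]
  rw [← Complex.exp_sum]
  congr 1
  push_cast
  rw [← Finset.sum_neg_distrib, Finset.sum_div]

omit [Fintype ι] [DecidableEq ι] [DecidableEq κ] in
theorem continuous_mulVec' (B : Matrix ι κ ℝ) : Continuous fun x : κ → ℝ => B *ᵥ x := by
  fun_prop

omit [DecidableEq κ] in
theorem charFunDual_map_sg (B : Matrix ι κ ℝ) (L : StrongDual ℝ (ι → ℝ)) :
    charFunDual ((sg κ).map (fun x => B *ᵥ x)) L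
      = Complex.exp (-((fun i => L (Pi.single i 1)) ⬝ᵥ ((B * Bᵀ) *ᵥ
          (fun i => L (Pi.single i 1))) : ℝ) / 2) := by
  have hmeas := (continuous_mulVec' B).measurable
  set l : ι → ℝ := fun i => L (Pi.single i 1) with hl
  have hL : ∀ y : ι → ℝ, L y = l ⬝ᵥ y := by
    intro y
    conv_lhs => rw [← Finset.univ_sum_single y]
    rw [map_sum, dotProduct]
    refine Finset.sum_congr rfl fun i _ => ?_
    have : (Pi.single i (y i) : ι → ℝ) = y i • (Pi.single i 1 : ι → ℝ) := by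
      rw [← Pi.single_smul]; simp
    rw [this, map_smul, smul_eq_mul, mul_comm]
  rw [charFunDual_apply, integral_map hmeas.aemeasurable
    (by fun_prop : Continuous fun v : ι → ℝ => Complex.exp (L v * Complex.I)).aestronglyMeasurable]
  have h1 : ∀ x : κ → ℝ, L (B *ᵥ x) = ∑ j, (l ᵥ* B) j * x j := by
    intro x
    rw [hL, Matrix.dotProduct_mulVec]
    rfl
  simp_rw [h1]
  rw [charfun_sg]
  congr 3
  have : ∑ j, (l ᵥ* B) j ^ 2 = (l ᵥ* B) ⬝ᵥ (l ᵥ* B) := by
    simp [dotProduct, sq]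
  rw [this, ← Matrix.mulVec_mulVec, Matrix.dotProduct_mulVec l, Matrix.mulVec_transpose]

omit [DecidableEq κ] in
/-- The law of `B ξ` only depends on `B Bᵀ`. -/
theorem map_sg_congr {κ' : Type*} [Fintype κ'] (B : Matrix ι κ ℝ) (B' : Matrix ι κ' ℝ)
    (h : B * Bᵀ = B' * B'ᵀ) :
    (sg κ).map (fun x => B *ᵥ x) = (sg κ').map (fun x => B' *ᵥ x) := by
  have : IsProbabilityMeasure ((sg κ).map (fun x => B *ᵥ x)) :=
    Measure.isProbabilityMeasure_map (continuous_mulVec' B).measurable.aemeasurable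
  have : IsProbabilityMeasure ((sg κ').map (fun x => B' *ᵥ x)) :=
    Measure.isProbabilityMeasure_map (continuous_mulVec' B').measurable.aemeasurable
  refine Measure.ext_of_charFunDual (funext fun L => ?_)
  rw [charFunDual_map_sg B L, charFunDual_map_sg B' L, h]

theorem exists_sqrt {S : Matrix ι ι ℝ} (hS : S.PosDef) :
    ∃ B : Matrix ι ι ℝ, B * Bᵀ = S ∧ B.det ≠ 0 := by
  have h0 := hS.posSemidef
  obtain ⟨B, hB⟩ := CStarAlgebra.nonneg_iff_eq_star_mul_self.mp h0.nonneg
  rw [Matrix.star_eq_conjTranspose, Matrix.conjTranspose_eq_transpose_of_trivial] at hB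
  refine ⟨Bᵀ, ?_, ?_⟩
  · rw [hB, Matrix.transpose_transpose]
  · have h1 : S.det ≠ 0 := hS.det_pos.ne'
    rw [hB, Matrix.det_mul] at h1
    rw [Matrix.det_transpose]
    exact right_ne_zero_of_mul h1

omit [DecidableEq κ] in
/-- The image of the standard Gaussian under any matrix with `B Bᵀ` positive definite. -/
theorem map_sg (B : Matrix ι κ ℝ) {S : Matrix ι ι ℝ} (hS : S.PosDef) (hB : B * Bᵀ = S) :
    (sg κ).map (fun x => B *ᵥ x) = volume.withDensity fun y => ENNReal.ofReal (gk S y) := by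
  obtain ⟨B', hB', hdet⟩ := exists_sqrt hS
  rw [map_sg_congr B B' (hB.trans hB'.symm), map_sg_square B' hdet, hB']

/-! ### the kernel -/

theorem continuous_gk (S : Matrix ι ι ℝ) : Continuous (gk S) := by
  unfold gk
  fun_prop

/-- The normalising constant. -/
def cS (S : Matrix ι ι ℝ) : ℝ := (√((2 * Real.pi) ^ (Fintype.card ι) * S.det))⁻¹

theorem cS_pos {S : Matrix ι ι ℝ} (hS : S.PosDef) : 0 < cS S := by
  have := hS.det_pos
  unfold cS
  positivity

theorem gk_eq (S : Matrix ι ι ℝ) (y : ι → ℝ) :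
    gk S y = cS S * Real.exp (-(y ⬝ᵥ (S⁻¹ *ᵥ y)) / 2) := rfl

theorem gk_pos {S : Matrix ι ι ℝ} (hS : S.PosDef) (y : ι → ℝ) : 0 < gk S y :=
  mul_pos (cS_pos hS) (Real.exp_pos _)

theorem gk_le {S : Matrix ι ι ℝ} (hS : S.PosDef) (y : ι → ℝ) : gk S y ≤ cS S := by
  rw [gk_eq]
  have h1 : 0 ≤ y ⬝ᵥ (S⁻¹ *ᵥ y) := by
    simpa using hS.inv.posSemidef.dotProduct_mulVec_nonneg y
  have h2 : Real.exp (-(y ⬝ᵥ (S⁻¹ *ᵥ y)) / 2) ≤ 1 := Real.exp_le_one_iff.2 (by linarith)
  nlinarith [cS_pos hS]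

theorem lintegral_gk {S : Matrix ι ι ℝ} (hS : S.PosDef) :
    ∫⁻ y, ENNReal.ofReal (gk S y) = 1 := by
  obtain ⟨B, hB, -⟩ := exists_sqrt hS
  have h := map_sg B hS hB
  have : IsProbabilityMeasure ((sg ι).map (fun x => B *ᵥ x)) :=
    Measure.isProbabilityMeasure_map (continuous_mulVec' B).measurable.aemeasurable
  have h2 : ((sg ι).map (fun x => B *ᵥ x)) Set.univ = 1 := measure_univ
  rw [h, withDensity_apply _ MeasurableSet.univ, Measure.restrict_univ] at h2
  exact h2

theorem integrable_gk {S : Matrix ι ι ℝ} (hS : S.PosDef) : Integrable (gk S) := by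
  refine ⟨(continuous_gk S).aestronglyMeasurable, ?_⟩
  rw [hasFiniteIntegral_iff_ofReal (ae_of_all _ fun y => (gk_pos hS y).le), lintegral_gk hS]
  exact ENNReal.one_lt_top

theorem integral_gk {S : Matrix ι ι ℝ} (hS : S.PosDef) : ∫ y, gk S y = 1 := by
  rw [integral_eq_lintegral_of_nonneg_ae (ae_of_all _ fun y => (gk_pos hS y).le)
    (continuous_gk S).aestronglyMeasurable, lintegral_gk hS, ENNReal.toReal_one]

/-! ### the smoothed law -/

variable {X : Measure (ι → ℝ)} [IsProbabilityMeasure X]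

theorem integrable_gk_sub {S : Matrix ι ι ℝ} (hS : S.PosDef) (z : ι → ℝ) :
    Integrable (fun x => gk S (z - x)) X := by
  refine (integrable_const (cS S)).mono' ?_ (ae_of_all _ fun _ => ?_)
  · exact ((continuous_gk S).comp (by fun_prop)).aestronglyMeasurable
  · rw [Real.norm_eq_abs, abs_of_pos (gk_pos hS _)]
    exact gk_le hS _

theorem ofReal_dens {S : Matrix ι ι ℝ} (hS : S.PosDef) (z : ι → ℝ) :
    ENNReal.ofReal (dens X S z) = ∫⁻ x, ENNReal.ofReal (gk S (z - x)) ∂X :=
  ofReal_integral_eq_lintegral_ofReal (integrable_gk_sub hS z)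
    (ae_of_all _ fun _ => (gk_pos hS _).le)

theorem dens_pos {S : Matrix ι ι ℝ} (hS : S.PosDef) (z : ι → ℝ) : 0 < dens X S z := by
  rw [dens, integral_pos_iff_support_of_nonneg (fun x => (gk_pos hS _).le)
    (integrable_gk_sub hS z)]
  have : Function.support (fun x => gk S (z - x)) = Set.univ :=
    Set.eq_univ_of_forall fun x => (gk_pos hS _).ne'
  rw [this]
  simp

theorem dens_le {S : Matrix ι ι ℝ} (hS : S.PosDef) (z : ι → ℝ) : dens X S z ≤ cS S := by
  have := integral_mono (integrable_gk_sub hS z) (integrable_const (μ := X) (cS S))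
    (fun _ => gk_le hS _)
  simpa [dens] using this

theorem continuous_dens {S : Matrix ι ι ℝ} (hS : S.PosDef) : Continuous (dens X S) := by
  refine continuous_of_dominated (bound := fun _ => cS S) (fun z => ?_) (fun z => ?_)
    (integrable_const _) (ae_of_all _ fun x => ?_)
  · exact (integrable_gk_sub hS z).aestronglyMeasurable
  · refine ae_of_all _ fun x => ?_
    rw [Real.norm_eq_abs, abs_of_pos (gk_pos hS _)]
    exact gk_le hS _
  · exact (continuous_gk S).comp (by fun_prop)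

omit [DecidableEq κ] in
/-- `sm X S` is the law of `x + B ξ`. -/
theorem sm_eq_map (B : Matrix ι κ ℝ) {S : Matrix ι ι ℝ} (hS : S.PosDef) (hB : B * Bᵀ = S) :
    sm X S = (X.prod (sg κ)).map (fun p => p.1 + B *ᵥ p.2) := by
  have hm1 : Measurable fun p : (ι → ℝ) × (ι → ℝ) => p.1 + p.2 := measurable_fst.add measurable_snd
  have hcB := (continuous_mulVec' B).measurable
  have h1 : (X.prod (sg κ)).map (fun p => p.1 + B *ᵥ p.2)
      = (X.prod ((sg κ).map (fun x => B *ᵥ x))).map (fun p => p.1 + p.2) := by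
    have h := Measure.map_prod_map X (sg κ) measurable_id hcB
    rw [Measure.map_id] at h
    rw [h, Measure.map_map hm1 (by fun_prop)]
    rfl
  rw [h1, map_sg B hS hB]
  ext A hA
  have hgm : Measurable fun y : ι → ℝ => ENNReal.ofReal (gk S y) :=
    (continuous_gk S).measurable.ennreal_ofReal
  have hsf : SFinite (volume.withDensity fun y => ENNReal.ofReal (gk S y)) := inferInstance
  rw [Measure.map_apply hm1 hA, Measure.prod_apply (hm1 hA), sm, withDensity_apply _ hA]
  simp_rw [ofReal_dens hS]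
  rw [lintegral_lintegral_swap (by
    refine Measurable.aemeasurable ?_
    exact hgm.comp (by fun_prop : Measurable fun p : (ι → ℝ) × (ι → ℝ) => p.1 - p.2))]
  refine lintegral_congr fun x => ?_
  have hAx : MeasurableSet (Prod.mk x ⁻¹' ((fun p : (ι → ℝ) × (ι → ℝ) => p.1 + p.2) ⁻¹' A)) :=
    measurable_prodMk_left (hm1 hA)
  rw [withDensity_apply _ hAx, ← lintegral_indicator hA, ← lintegral_indicator hAx,
    ← lintegral_sub_right_eq_self (fun y => Set.indicator
      (Prod.mk x ⁻¹' ((fun p : (ι → ℝ) × (ι → ℝ) => p.1 + p.2) ⁻¹' A))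
      (fun y => ENNReal.ofReal (gk S y)) y) x]
  refine lintegral_congr fun z => ?_
  have hiff : (z - x ∈ Prod.mk x ⁻¹' ((fun p : (ι → ℝ) × (ι → ℝ) => p.1 + p.2) ⁻¹' A)) ↔ z ∈ A := by
    change x + (z - x) ∈ A ↔ z ∈ A
    rw [add_sub_cancel]
  by_cases hz : z ∈ A
  · rw [Set.indicator_of_mem hz, Set.indicator_of_mem (hiff.2 hz)]
  · rw [Set.indicator_of_notMem hz, Set.indicator_of_notMem (fun h => hz (hiff.1 h))]

theorem isProb_sm {S : Matrix ι ι ℝ} (hS : S.PosDef) : IsProbabilityMeasure (sm X S) := by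
  obtain ⟨B, hB, -⟩ := exists_sqrt hS
  rw [sm_eq_map B hS hB]
  refine Measure.isProbabilityMeasure_map (Measurable.aemeasurable ?_)
  have : Continuous fun p : (ι → ℝ) × (ι → ℝ) => p.1 + B *ᵥ p.2 := by fun_prop
  exact this.measurable

theorem lintegral_dens {S : Matrix ι ι ℝ} (hS : S.PosDef) :
    ∫⁻ z, ENNReal.ofReal (dens X S z) = 1 := by
  have := (isProb_sm (X := X) hS).measure_univ
  rwa [sm, withDensity_apply _ MeasurableSet.univ, Measure.restrict_univ] at this

theorem integrable_dens {S : Matrix ι ι ℝ} (hS : S.PosDef) : Integrable (dens X S) := by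
  refine ⟨(continuous_dens hS).aestronglyMeasurable, ?_⟩
  rw [hasFiniteIntegral_iff_ofReal (ae_of_all _ fun y => (dens_pos hS y).le), lintegral_dens hS]
  exact ENNReal.one_lt_top

theorem integral_dens {S : Matrix ι ι ℝ} (hS : S.PosDef) : ∫ z, dens X S z = 1 := by
  rw [integral_eq_lintegral_of_nonneg_ae (ae_of_all _ fun y => (dens_pos hS y).le)
    (continuous_dens hS).aestronglyMeasurable, lintegral_dens hS, ENNReal.toReal_one]

theorem sm_toReal {S : Matrix ι ι ℝ} (hS : S.PosDef) {A : Set (ι → ℝ)} (hA : MeasurableSet A) :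
    (sm X S A).toReal = ∫ z in A, dens X S z := by
  rw [sm, withDensity_apply _ hA, ← ofReal_integral_eq_lintegral_ofReal
    (integrable_dens hS).restrict (ae_of_all _ fun y => (dens_pos hS y).le),
    ENNReal.toReal_ofReal (integral_nonneg fun y => (dens_pos hS y).le)]

theorem integral_sm {S : Matrix ι ι ℝ} (hS : S.PosDef) (F : (ι → ℝ) → ℝ) :
    ∫ z, F z ∂(sm X S) = ∫ z, F z * dens X S z := by
  have h : sm X S = volume.withDensity (fun z => ((Real.toNNReal (dens X S z) : NNReal) : ENNReal)) :=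
    rfl
  rw [h, integral_withDensity_eq_integral_smul
    ((continuous_dens hS).measurable.real_toNNReal)]
  refine integral_congr_ae (ae_of_all _ fun z => ?_)
  simp only [NNReal.smul_def, smul_eq_mul, Real.coe_toNNReal _ (dens_pos hS z).le]
  ring

theorem integrable_sm {S : Matrix ι ι ℝ} (hS : S.PosDef) (F : (ι → ℝ) → ℝ) :
    Integrable F (sm X S) ↔ Integrable (fun z => F z * dens X S z) := by
  have h : sm X S = volume.withDensity (fun z => ((Real.toNNReal (dens X S z) : NNReal) : ENNReal)) :=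
    rfl
  rw [h, integrable_withDensity_iff_integrable_smul ((continuous_dens hS).measurable.real_toNNReal)]
  refine integrable_congr (ae_of_all _ fun z => ?_)
  simp only [NNReal.smul_def, smul_eq_mul, Real.coe_toNNReal _ (dens_pos hS z).le]
  ring

/-- Marginals of the smoothed law. -/
theorem sm_map_comp {ι' : Type*} [Fintype ι'] [DecidableEq ι'] {f : ι' → ι}
    (hf : Function.Injective f) {S : Matrix ι ι ℝ} (hS : S.PosDef) :
    (sm X S).map (fun z => z ∘ f) = sm (X.map fun x => x ∘ f) (S.submatrix f f) := by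
  obtain ⟨B, hB, -⟩ := exists_sqrt hS
  have hmf : Measurable fun z : ι → ℝ => z ∘ f := by
    have : Continuous fun z : ι → ℝ => z ∘ f := by fun_prop
    exact this.measurable
  have : IsProbabilityMeasure (X.map fun x => x ∘ f) :=
    Measure.isProbabilityMeasure_map hmf.aemeasurable
  have hB' : (B.submatrix f id) * (B.submatrix f id)ᵀ = S.submatrix f f := by
    rw [← hB]
    rfl
  have hm : Measurable fun p : (ι → ℝ) × (ι → ℝ) => p.1 + B *ᵥ p.2 := by
    have : Continuous fun p : (ι → ℝ) × (ι → ℝ) => p.1 + B *ᵥ p.2 := by fun_prop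
    exact this.measurable
  have hm2 : Measurable fun p : (ι' → ℝ) × (ι → ℝ) => p.1 + (B.submatrix f id) *ᵥ p.2 := by
    have : Continuous fun p : (ι' → ℝ) × (ι → ℝ) => p.1 + (B.submatrix f id) *ᵥ p.2 := by
      fun_prop
    exact this.measurable
  rw [sm_eq_map B hS hB, sm_eq_map (B.submatrix f id) (hS.submatrix hf) hB',
    Measure.map_map hmf hm]
  have h := Measure.map_prod_map X (sg ι) hmf measurable_id
  rw [Measure.map_id] at h
  rw [h, Measure.map_map hm2 (by fun_prop)]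
  rfl

end Vale.Agent.P156.H877
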