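import Vale.Agent.P156.H877.Bound

/-!
# Integrability of `w log w` and continuity of the entropy in the covariance
-/

open MeasureTheory Matrix Filter Topology ProbabilityTheory
open scoped ENNReal MatrixOrder

noncomputable section

namespace Vale.Agent.P156.H877

variable {ι : Type*} [Fintype ι] [DecidableEq ι] {X : Measure (ι → ℝ)} [IsProbabilityMeasure X]
  {S : Matrix ι ι ℝ} {a b c C : ℝ}

/-- Common domination of `negMulLog dens`. -/
theorem exists_dom (hX : Integrable (fun x => ‖x‖ ^ 2) X) (a b c C : ℝ) (ha : 0 < a) :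
    ∃ G : (ι → ℝ) → ℝ, Integrable G ∧ ∀ S : Matrix ι ι ℝ, Bd S a b c C →
      ∀ z, |Real.negMulLog (dens X S z)| ≤ G z := by
  obtain ⟨R, -, hR⟩ := exists_radius X
  obtain ⟨K, hK0, hK⟩ := Bd.abs_log_le hR a b c C
  refine ⟨fun z => (|C| * Real.exp (a / 2) * K) * ((1 + ‖z‖ ^ 2) * VV X (a / 4) z),
    (integrable_VV (by positivity) hX).const_mul _, fun S h z => ?_⟩
  have h1 := h.dens_le_VV (X := X) (z := z) (y := z) (by simp)
  have h2 := hK S h z
  have h3 := dens_pos (X := X) h.pd z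
  have hC : C ≤ |C| := le_abs_self C
  have hV := VV_nonneg (X := X) (a / 4) z
  rw [Real.negMulLog, neg_mul, abs_neg, abs_mul, abs_of_pos h3]
  calc dens X S z * |Real.log (dens X S z)|
      ≤ ((|C| * Real.exp (a / 2)) * VV X (a / 4) z) * (K * (1 + ‖z‖ ^ 2)) := by
        gcongr
        exact h1.trans (by gcongr)
    _ = _ := by ring

/-- (E1) -/
theorem integrable_negMulLog_dens (hS : S.PosDef) (hX : Integrable (fun x => ‖x‖ ^ 2) X) :
    Integrable (fun z => Real.negMulLog (dens X S z)) := by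
  obtain ⟨a, b, h⟩ := exists_Bd hS
  obtain ⟨G, hG, hb⟩ := exists_dom hX a b (cS S) (cS S) h.a0
  refine hG.mono' ?_ (ae_of_all _ fun z => ?_)
  · exact (Real.continuous_negMulLog.comp (continuous_dens hS)).aestronglyMeasurable
  · rw [Real.norm_eq_abs]
    exact hb S h z

theorem tendsto_inv_matrix {J : Type*} {l : Filter J} {T : J → Matrix ι ι ℝ} (hS : S.det ≠ 0)
    (hT : Tendsto T l (𝓝 S)) : Tendsto (fun j => (T j)⁻¹) l (𝓝 S⁻¹) := by
  have h1 : Tendsto (fun j => (T j).det) l (𝓝 S.det) :=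
    ((continuous_id.matrix_det).tendsto S).comp hT
  have h2 : Tendsto (fun j => (T j).adjugate) l (𝓝 S.adjugate) :=
    ((continuous_id.matrix_adjugate).tendsto S).comp hT
  have h3 : Tendsto (fun j => (T j).det⁻¹) l (𝓝 S.det⁻¹) := h1.inv₀ hS
  have h4 := h3.smul h2
  simpa [Matrix.inv_def] using h4

theorem eventually_Bd {J : Type*} {l : Filter J} {T : J → Matrix ι ι ℝ} (h : Bd S a b c C)
    (hT : Tendsto T l (𝓝 S)) (hP : ∀ᶠ j in l, (T j).PosDef) :
    ∀ᶠ j in l, Bd (T j) (a / 2) (2 * b) (c / 2) (2 * C) := by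
  have hdet : S.det ≠ 0 := h.pd.det_pos.ne'
  have hinv := tendsto_inv_matrix hdet hT
  have hC : 0 < C := (cS_pos h.pd).trans_le h.cu
  have h1 : Tendsto (fun j => ∑ i, ∑ k, |((T j)⁻¹ - S⁻¹) i k|) l (𝓝 0) := by
    have h2 : Tendsto (fun j => (T j)⁻¹ - S⁻¹) l (𝓝 0) := by
      have := hinv.sub_const (S⁻¹)
      simpa using this
    have h3 : Continuous fun M : Matrix ι ι ℝ => ∑ i, ∑ k, |M i k| := by fun_prop
    have h4 := (h3.tendsto 0).comp h2
    simpa [Function.comp_def] using h4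
  have hcc : Tendsto (fun j => cS (T j)) l (𝓝 (cS S)) := by
    have h5 : Tendsto (fun j => (T j).det) l (𝓝 S.det) :=
      ((continuous_id.matrix_det).tendsto S).comp hT
    have h6 := ((h5.const_mul ((2 * Real.pi) ^ (Fintype.card ι))).sqrt).inv₀ (by
      have := h.pd.det_pos
      positivity)
    exact h6
  have ha := h.a0
  have hb := h.b0
  have hc := h.c0
  filter_upwards [hP, h1.eventually_lt_const (half_pos ha), h1.eventually_lt_const hb,
    hcc.eventually_const_lt (show c / 2 < cS S from by linarith [h.cl]),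
    hcc.eventually_lt_const (show cS S < 2 * C from by linarith [h.cu])] with j hj h2 h3 h4 h5
  have hq : ∀ y : ι → ℝ, y ⬝ᵥ ((T j)⁻¹ *ᵥ y) = y ⬝ᵥ (S⁻¹ *ᵥ y) + y ⬝ᵥ (((T j)⁻¹ - S⁻¹) *ᵥ y) := by
    intro y
    rw [Matrix.sub_mulVec, dotProduct_sub]
    ring
  refine ⟨hj, by positivity, by positivity, by positivity, fun y => ?_, fun y => ?_, h4.le, h5.le⟩
  · rw [hq]
    have h6 := abs_quad_le ((T j)⁻¹ - S⁻¹) y
    have h7 := neg_abs_le (y ⬝ᵥ (((T j)⁻¹ - S⁻¹) *ᵥ y))
    have h8 := h.lo y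
    have h9 : (∑ i, ∑ k, |((T j)⁻¹ - S⁻¹) i k|) * ‖y‖ ^ 2 ≤ (a / 2) * ‖y‖ ^ 2 := by gcongr
    linarith
  · rw [hq]
    have h6 := abs_quad_le ((T j)⁻¹ - S⁻¹) y
    have h7 := le_abs_self (y ⬝ᵥ (((T j)⁻¹ - S⁻¹) *ᵥ y))
    have h8 := h.hi y
    have h9 : (∑ i, ∑ k, |((T j)⁻¹ - S⁻¹) i k|) * ‖y‖ ^ 2 ≤ b * ‖y‖ ^ 2 := by gcongr
    linarith

/-- The smoothed density is continuous in the covariance. -/
theorem tendsto_dens {J : Type*} {l : Filter J} [l.IsCountablyGenerated] {T : J → Matrix ι ι ℝ}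
    (hS : S.PosDef) (hT : Tendsto T l (𝓝 S)) (hP : ∀ᶠ j in l, (T j).PosDef) (z : ι → ℝ) :
    Tendsto (fun j => dens X (T j) z) l (𝓝 (dens X S z)) := by
  obtain ⟨a, b, h⟩ := exists_Bd hS
  have hB := eventually_Bd h hT hP
  refine tendsto_integral_filter_of_dominated_convergence (fun _ => 2 * cS S) ?_ ?_
    (integrable_const _) (ae_of_all _ fun x => ?_)
  · filter_upwards [hP] with j hj
    exact (integrable_gk_sub hj z).aestronglyMeasurable
  · filter_upwards [hB] with j hj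
    refine ae_of_all _ fun x => ?_
    rw [Real.norm_eq_abs, abs_of_pos (gk_pos hj.pd _)]
    exact (gk_le hj.pd _).trans hj.cu
  · have hinv := tendsto_inv_matrix h.pd.det_pos.ne' hT
    have h5 : Tendsto (fun j => (T j).det) l (𝓝 S.det) :=
      ((continuous_id.matrix_det).tendsto S).comp hT
    have h6 := ((h5.const_mul ((2 * Real.pi) ^ (Fintype.card ι))).sqrt).inv₀ (by
      have := h.pd.det_pos
      positivity)
    have h7 : Continuous fun M : Matrix ι ι ℝ => Real.exp (-((z - x) ⬝ᵥ (M *ᵥ (z - x))) / 2) := by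
      fun_prop
    have h8 := (h7.tendsto S⁻¹).comp hinv
    exact h6.mul h8

/-- (E3) -/
theorem tendsto_hh {J : Type*} {l : Filter J} [l.IsCountablyGenerated] {T : J → Matrix ι ι ℝ}
    (hX : Integrable (fun x => ‖x‖ ^ 2) X)
    (hS : S.PosDef) (hT : Tendsto T l (𝓝 S)) (hP : ∀ᶠ j in l, (T j).PosDef) :
    Tendsto (fun j => hh X (T j)) l (𝓝 (hh X S)) := by
  obtain ⟨a, b, h⟩ := exists_Bd hS
  have hB := eventually_Bd h hT hP
  obtain ⟨G, hG, hb⟩ := exists_dom hX (a / 2) (2 * b) (cS S / 2) (2 * cS S) (half_pos h.a0)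
  refine tendsto_integral_filter_of_dominated_convergence G ?_ ?_ hG (ae_of_all _ fun z => ?_)
  · filter_upwards [hP] with j hj
    exact (Real.continuous_negMulLog.comp (continuous_dens hj)).aestronglyMeasurable
  · filter_upwards [hB] with j hj
    refine ae_of_all _ fun z => ?_
    rw [Real.norm_eq_abs]
    exact hb _ hj z
  · exact (Real.continuous_negMulLog.tendsto _).comp (tendsto_dens hS hT hP z)

end Vale.Agent.P156.H877
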