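import Vale.Agent.P156.H877.Cells
import Mathlib.MeasureTheory.Integral.DominatedConvergence
import Mathlib.Analysis.SpecialFunctions.Log.NegMulLog
import Mathlib.Analysis.Convex.Jensen

/-!
# Entropy of a quantised density: the limit theorem (Rényi)
-/

open MeasureTheory Filter Topology
open scoped ENNReal

noncomputable section

set_option linter.unusedSectionVars false

namespace Vale.Agent.P156.H877

variable {ι : Type*} [Fintype ι] [DecidableEq ι]

/-- Regular densities. -/
structure Reg {ι : Type*} [Fintype ι] (w V : (ι → ℝ) → ℝ) (K : ℝ) : Prop where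
  cont : Continuous w
  pos : ∀ z, 0 < w z
  one : ∫ z, w z = 1
  loc : ∀ z y, ‖y - z‖ ≤ 1 → w y ≤ V z
  int : Integrable fun z => (1 + ‖z‖ ^ 2) * V z
  K0 : 0 ≤ K
  log : ∀ z, |Real.log (w z)| ≤ K * (1 + ‖z‖ ^ 2)

/-- Cell masses. -/
def PP {ι : Type*} [Fintype ι] (w : (ι → ℝ) → ℝ) (m : ℕ) (s : ι → Fin (2 * m ^ 2 + 1)) : ℝ := ∫ z in cell m s, w z

/-- Cell averages. -/
def wb {ι : Type*} [Fintype ι] (w : (ι → ℝ) → ℝ) (m : ℕ) (z : ι → ℝ) : ℝ := (m : ℝ) ^ (Fintype.card ι) * PP w m (code m z)

variable {w V : (ι → ℝ) → ℝ} {K : ℝ}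

theorem one_div_le_one' {m : ℕ} (hm : 0 < m) : (1 : ℝ) / m ≤ 1 := by
  have : (1 : ℝ) ≤ m := by exact_mod_cast hm
  rw [div_le_one (by positivity)]
  exact this

omit [DecidableEq ι] in
theorem eventually_window (z : ι → ℝ) : ∀ᶠ m : ℕ in atTop, ∀ i, |z i| < m := by
  obtain ⟨N, hN⟩ := exists_nat_gt ‖z‖
  filter_upwards [eventually_ge_atTop N] with m hm i
  have h1 : |z i| ≤ ‖z‖ := norm_le_pi_norm z i
  have h2 : (N : ℝ) ≤ m := by exact_mod_cast hm
  linarith

namespace Reg

variable (h : Reg w V K)
include h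

theorem le_V (z : ι → ℝ) : w z ≤ V z := h.loc z z (by simp)

theorem V_pos (z : ι → ℝ) : 0 < V z := (h.pos z).trans_le (h.le_V z)

theorem integrable_mul : Integrable fun z => (1 + ‖z‖ ^ 2) * w z := by
  refine h.int.mono' ?_ (ae_of_all _ fun z => ?_)
  · exact ((by fun_prop : Continuous fun z : ι → ℝ => 1 + ‖z‖ ^ 2).mul h.cont).aestronglyMeasurable
  · have h1 := h.pos z
    rw [Real.norm_eq_abs, abs_of_nonneg (by positivity)]
    have := h.le_V z
    gcongr

theorem integrable : Integrable w := by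
  refine h.integrable_mul.mono' h.cont.aestronglyMeasurable (ae_of_all _ fun z => ?_)
  have h1 := h.pos z
  rw [Real.norm_eq_abs, abs_of_pos h1]
  nlinarith [sq_nonneg ‖z‖]

theorem PP_nonneg (m : ℕ) (s) : 0 ≤ PP w m s :=
  integral_nonneg fun z => (h.pos z).le

theorem sum_PP (m : ℕ) : ∑ s, PP w m s = 1 := by
  have h1 := integral_iUnion_fintype (μ := (volume : Measure (ι → ℝ))) (f := w)
    (s := fun s : ι → Fin (2 * m ^ 2 + 1) => cell m s) (fun s => measurableSet_cell m s)
    (fun s t hst => by
      rw [Function.onFun, Set.disjoint_left]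
      intro z hz hz'
      rw [mem_cell] at hz hz'
      exact hst (hz.symm.trans hz')) (fun s => h.integrable.integrableOn)
  have h2 : (⋃ s : ι → Fin (2 * m ^ 2 + 1), cell m s) = (Set.univ : Set (ι → ℝ)) :=
    Set.eq_univ_of_forall fun z => Set.mem_iUnion.2 ⟨code m z, mem_cell.2 rfl⟩
  rw [h2, setIntegral_univ, h.one] at h1
  exact h1.symm

theorem PP_le_one (m : ℕ) (s) : PP w m s ≤ 1 := by
  rw [← h.sum_PP m]
  exact Finset.single_le_sum (fun s _ => h.PP_nonneg m s) (Finset.mem_univ s)

/-- bounds of cell averages -/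
theorem wb_mem {m : ℕ} (hm : 0 < m) {z : ι → ℝ} (hz : ∀ i, |z i| < m) {lo hi : ℝ}
    (hw : ∀ y, ‖y - z‖ ≤ 1 / m → lo ≤ w y ∧ w y ≤ hi) : lo ≤ wb w m z ∧ wb w m z ≤ hi := by
  have hin : Inner m (code m z) := fun i => qt_ne_last (hz i)
  have hvol := volume_cell_pi m (code m z) hin
  have hm' : (0 : ℝ) < m := by exact_mod_cast hm
  have hvr : (volume : Measure (ι → ℝ)).real (cell m (code m z)) = (1 / (m : ℝ)) ^ Fintype.card ι := by
    rw [Measure.real, hvol, ENNReal.toReal_pow, ENNReal.toReal_ofReal (by positivity)]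
  have hfin : volume (cell m (code m z)) ≠ ⊤ := by
    rw [hvol]
    exact ENNReal.pow_ne_top ENNReal.ofReal_ne_top
  have hcell : ∀ y ∈ cell m (code m z), ‖y - z‖ ≤ 1 / m := by
    intro y hy
    refine (pi_norm_le_iff_of_nonneg (by positivity)).2 fun i => ?_
    rw [Real.norm_eq_abs]
    exact dist_le_of_qt_eq (hz i) (hy i)
  have hone : (m : ℝ) ^ Fintype.card ι * (1 / (m : ℝ)) ^ Fintype.card ι = 1 := by
    rw [← mul_pow, mul_one_div_cancel hm'.ne', one_pow]
  have e1 : lo * (1 / (m : ℝ)) ^ Fintype.card ι ≤ PP w m (code m z) := by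
    have := setIntegral_mono_on (μ := (volume : Measure (ι → ℝ))) (s := cell m (code m z))
      (f := fun _ => lo) (g := w)
      (integrableOn_const hfin) h.integrable.integrableOn
      (measurableSet_cell m _) (fun y hy => (hw y (hcell y hy)).1)
    rw [setIntegral_const, hvr, smul_eq_mul] at this
    rw [mul_comm]
    exact this
  have e2 : PP w m (code m z) ≤ hi * (1 / (m : ℝ)) ^ Fintype.card ι := by
    have := setIntegral_mono_on (μ := (volume : Measure (ι → ℝ))) (s := cell m (code m z))
      (f := w) (g := fun _ => hi) h.integrable.integrableOn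
      (integrableOn_const hfin)
      (measurableSet_cell m _) (fun y hy => (hw y (hcell y hy)).2)
    rw [setIntegral_const, hvr, smul_eq_mul] at this
    rw [mul_comm]
    exact this
  have hmp : (0 : ℝ) < (m : ℝ) ^ Fintype.card ι := by positivity
  constructor
  · calc lo = (m : ℝ) ^ Fintype.card ι * (lo * (1 / (m : ℝ)) ^ Fintype.card ι) := by
          rw [mul_left_comm, hone, mul_one]
      _ ≤ wb w m z := by unfold wb; gcongr
  · calc wb w m z ≤ (m : ℝ) ^ Fintype.card ι * (hi * (1 / (m : ℝ)) ^ Fintype.card ι) := by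
          unfold wb; gcongr
      _ = hi := by rw [mul_left_comm, hone, mul_one]

/-- domination -/
theorem abs_negMulLog_wb_le {m : ℕ} (hm : 0 < m) {z : ι → ℝ} (hz : ∀ i, |z i| < m) :
    |Real.negMulLog (wb w m z)| ≤ 3 * K * ((1 + ‖z‖ ^ 2) * V z) := by
  set L : ℝ := 3 * K * (1 + ‖z‖ ^ 2) with hL
  have hK := h.K0
  have hlog : ∀ y, ‖y - z‖ ≤ 1 / m → |Real.log (w y)| ≤ L := by
    intro y hy
    have h1 : ‖y - z‖ ≤ 1 := hy.trans (one_div_le_one' hm)
    have h2 : ‖y‖ ≤ ‖z‖ + 1 := by
      have : y = (y - z) + z := by abel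
      rw [this]
      exact (norm_add_le _ _).trans (by linarith)
    have h3 : 1 + ‖y‖ ^ 2 ≤ 3 * (1 + ‖z‖ ^ 2) := by
      have : ‖y‖ ^ 2 ≤ (‖z‖ + 1) ^ 2 := by gcongr
      nlinarith [sq_nonneg (‖z‖ - 1)]
    calc |Real.log (w y)| ≤ K * (1 + ‖y‖ ^ 2) := h.log y
      _ ≤ K * (3 * (1 + ‖z‖ ^ 2)) := by gcongr
      _ = L := by rw [hL]; ring
  have hb := h.wb_mem hm hz (lo := Real.exp (-L)) (hi := Real.exp L) (fun y hy => by
    have h1 := abs_le.1 (hlog y hy)
    have h2 := h.pos y
    constructor
    · rw [← Real.exp_log h2]; exact Real.exp_le_exp.2 h1.1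
    · rw [← Real.exp_log h2]; exact Real.exp_le_exp.2 h1.2)
  have hb2 := h.wb_mem hm hz (lo := 0) (hi := V z) (fun y hy =>
    ⟨(h.pos y).le, h.loc z y (hy.trans (one_div_le_one' hm))⟩)
  have hpos : 0 < wb w m z := (Real.exp_pos _).trans_le hb.1
  have h4 : |Real.log (wb w m z)| ≤ L := by
    rw [abs_le]
    constructor
    · rw [Real.le_log_iff_exp_le hpos]; exact hb.1
    · rw [Real.log_le_iff_le_exp hpos]; exact hb.2
  rw [Real.negMulLog, neg_mul, abs_neg, abs_mul, abs_of_pos hpos]
  calc wb w m z * |Real.log (wb w m z)| ≤ V z * L := by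
        gcongr
        · exact (h.V_pos z).le
        · exact hb2.2
    _ = _ := by rw [hL]; ring

theorem tendsto_wb (z : ι → ℝ) : Tendsto (fun m => wb w m z) atTop (𝓝 (w z)) := by
  rw [Metric.tendsto_atTop']
  intro ε hε
  obtain ⟨δ, hδ, hc⟩ := Metric.continuousAt_iff.1 (h.cont.continuousAt (x := z)) (ε / 2)
    (half_pos hε)
  have h1 : ∀ᶠ m : ℕ in atTop, (1 : ℝ) / m < δ :=
    (tendsto_one_div_atTop_nhds_zero_nat (𝕜 := ℝ)).eventually_lt_const hδ
  have h2 := ((eventually_window z).and (h1.and (eventually_gt_atTop 0)))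
  obtain ⟨N, hN⟩ := eventually_atTop.1 h2
  refine ⟨N, fun m hm => ?_⟩
  obtain ⟨h3, h4, h5⟩ := hN m (le_of_lt hm)
  have h6 := h.wb_mem h5 h3 (lo := w z - ε / 2) (hi := w z + ε / 2) (fun y hy => by
    have h7 := hc (show dist y z < δ by rw [dist_eq_norm]; exact hy.trans_lt h4)
    rw [Real.dist_eq] at h7
    have h8 := abs_lt.1 h7
    constructor <;> linarith [h8.1, h8.2])
  rw [Real.dist_eq]
  refine lt_of_le_of_lt (b := ε / 2) ?_ (by linarith)
  rw [abs_le]
  constructor <;> linarith [h6.1, h6.2]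

/-- the integral over the window -/
def gg {ι : Type*} [Fintype ι] (w : (ι → ℝ) → ℝ) (m : ℕ) (z : ι → ℝ) : ℝ := by
  classical exact if Inner m (code m z) then Real.negMulLog (wb w m z) else 0

omit h in
theorem inner_iff {m : ℕ} (z : ι → ℝ) : Inner m (code m z) ↔ ∀ i, |z i| < m := by
  constructor
  · intro hz i
    by_contra hi
    exact hz i (qt_eq_last (not_lt.1 hi))
  · intro hz i
    exact qt_ne_last (hz i)

theorem tendsto_int_gg : Tendsto (fun m => ∫ z, gg w m z) atTop (𝓝 (∫ z, Real.negMulLog (w z))) := by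
  refine tendsto_integral_filter_of_dominated_convergence
    (fun z => 3 * K * ((1 + ‖z‖ ^ 2) * V z)) (Eventually.of_forall fun m => ?_) ?_
    (h.int.const_mul _) (ae_of_all _ fun z => ?_)
  · have : gg w m = (fun s : ι → Fin (2 * m ^ 2 + 1) => by
        classical exact if Inner m s then
          Real.negMulLog ((m : ℝ) ^ (Fintype.card ι) * PP w m s) else 0) ∘ code m := by
      funext z
      simp [gg, wb]
    rw [this]
    exact ((measurable_of_finite _).comp (measurable_code m)).aestronglyMeasurable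
  · filter_upwards [eventually_gt_atTop 0] with m hm
    refine ae_of_all _ fun z => ?_
    rw [Real.norm_eq_abs]
    unfold gg
    split_ifs with hz
    · exact h.abs_negMulLog_wb_le hm ((inner_iff z).1 hz)
    · rw [abs_zero]
      have := h.V_pos z
      have := h.K0
      positivity
  · have h1 := (Real.continuous_negMulLog.tendsto (w z)).comp (h.tendsto_wb z)
    refine h1.congr' ?_
    filter_upwards [eventually_window z] with m hm
    simp only [gg, Function.comp]
    rw [if_pos ((inner_iff z).2 hm)]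

open Classical in
theorem int_gg_eq {m : ℕ} (hm : 0 < m) : ∫ z, gg w m z
    = ∑ s : ι → Fin (2 * m ^ 2 + 1), if Inner m s then
        (1 / (m : ℝ)) ^ Fintype.card ι * Real.negMulLog ((m : ℝ) ^ (Fintype.card ι) * PP w m s)
        else 0 := by
  have hm' : (0 : ℝ) < m := by exact_mod_cast hm
  have h1 : ∀ z, gg w m z = ∑ s : ι → Fin (2 * m ^ 2 + 1), (cell m s).indicator (fun _ =>
      if Inner m s then Real.negMulLog ((m : ℝ) ^ (Fintype.card ι) * PP w m s) else 0) z := by
    intro z
    rw [Finset.sum_eq_single (code m z)]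
    · rw [Set.indicator_of_mem (mem_cell.2 rfl)]
      simp [gg, wb]
    · intro s _ hs
      rw [Set.indicator_of_notMem]
      intro hz
      exact hs (mem_cell.1 hz).symm
    · simp
  have hvr : ∀ s : ι → Fin (2 * m ^ 2 + 1), Inner m s →
      (volume : Measure (ι → ℝ)).real (cell m s) = (1 / (m : ℝ)) ^ Fintype.card ι := by
    intro s hs
    rw [Measure.real, volume_cell_pi m s hs, ENNReal.toReal_pow,
      ENNReal.toReal_ofReal (by positivity)]
  simp_rw [h1]
  rw [integral_finsetSum]
  · refine Finset.sum_congr rfl fun s _ => ?_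
    rw [integral_indicator (measurableSet_cell m s), setIntegral_const, smul_eq_mul]
    split_ifs with hs
    · rw [hvr s hs]
    · rw [mul_zero]
  · intro s _
    by_cases hs : Inner m s
    · simp only [if_pos hs]
      refine (integrable_indicator_iff (measurableSet_cell m s)).2 (integrableOn_const ?_)
      rw [volume_cell_pi m s hs]
      exact ENNReal.pow_ne_top ENNReal.ofReal_ne_top
    · simp only [if_neg hs]
      simp

open Classical in
/-- mass outside the window -/
def pout {ι : Type*} [Fintype ι] [DecidableEq ι] (w : (ι → ℝ) → ℝ) (m : ℕ) : ℝ :=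
  ∑ s : ι → Fin (2 * m ^ 2 + 1), if Inner m s then 0 else PP w m s

open Classical in
theorem entropy_split {m : ℕ} (hm : 0 < m) :
    ∑ s : ι → Fin (2 * m ^ 2 + 1), Real.negMulLog (PP w m s) - Fintype.card ι * Real.log m
      = (∫ z, gg w m z) - Fintype.card ι * Real.log m * pout w m
        + ∑ s : ι → Fin (2 * m ^ 2 + 1), if Inner m s then 0 else Real.negMulLog (PP w m s) := by
  have hm' : (0 : ℝ) < m := by exact_mod_cast hm
  have hmp : (0 : ℝ) < (m : ℝ) ^ Fintype.card ι := by positivity
  have hone : (1 / (m : ℝ)) ^ Fintype.card ι * (m : ℝ) ^ Fintype.card ι = 1 := by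
    rw [← mul_pow, one_div_mul_cancel hm'.ne', one_pow]
  have h1 : ∀ s : ι → Fin (2 * m ^ 2 + 1), Real.negMulLog (PP w m s)
      = (if Inner m s then (1 / (m : ℝ)) ^ Fintype.card ι *
          Real.negMulLog ((m : ℝ) ^ (Fintype.card ι) * PP w m s) else 0)
        + Fintype.card ι * Real.log m * (PP w m s - if Inner m s then 0 else PP w m s)
        + (if Inner m s then 0 else Real.negMulLog (PP w m s)) := by
    intro s
    split_ifs with hs
    · have h2 : PP w m s = (1 / (m : ℝ)) ^ Fintype.card ι * ((m : ℝ) ^ (Fintype.card ι) * PP w m s) := by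
        rw [← mul_assoc, hone, one_mul]
      conv_lhs => rw [h2]
      rw [Real.negMulLog_mul]
      have h3 : Real.negMulLog ((1 / (m : ℝ)) ^ Fintype.card ι)
          = (1 / (m : ℝ)) ^ Fintype.card ι * (Fintype.card ι * Real.log m) := by
        rw [Real.negMulLog, Real.log_pow, one_div, Real.log_inv]
        ring
      rw [h3]
      have h4 : (m : ℝ) ^ Fintype.card ι * PP w m s * ((1 / (m : ℝ)) ^ Fintype.card ι *
          (Fintype.card ι * Real.log m)) = ((1 / (m : ℝ)) ^ Fintype.card ι * (m : ℝ) ^ Fintype.card ι)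
            * (PP w m s * (Fintype.card ι * Real.log m)) := by ring
      rw [h4, hone]
      ring
    · ring
  rw [Finset.sum_congr rfl (fun s _ => h1 s)]
  rw [Finset.sum_add_distrib, Finset.sum_add_distrib, ← h.int_gg_eq hm, ← Finset.mul_sum,
    Finset.sum_sub_distrib, h.sum_PP, pout]
  ring

omit h in
/-- Jensen bound for the outer part. -/
theorem sum_negMulLog_le {σ : Type*} [Fintype σ] [Nonempty σ] (P : σ → ℝ) (hP : ∀ s, 0 ≤ P s) :
    ∑ s, Real.negMulLog (P s) ≤ Real.negMulLog (∑ s, P s)
      + (∑ s, P s) * Real.log (Fintype.card σ) := by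
  have hN : (0 : ℝ) < Fintype.card σ := by exact_mod_cast Fintype.card_pos
  have h1 := Real.concaveOn_negMulLog.le_map_sum (t := Finset.univ)
    (w := fun _ : σ => (Fintype.card σ : ℝ)⁻¹) (p := P) (fun _ _ => by positivity)
    (by simp [hN.ne']) (fun s _ => hP s)
  simp only [smul_eq_mul, ← Finset.mul_sum] at h1
  rw [Real.negMulLog_mul] at h1
  have h2 : Real.negMulLog ((Fintype.card σ : ℝ)⁻¹)
      = (Fintype.card σ : ℝ)⁻¹ * Real.log (Fintype.card σ) := by
    rw [Real.negMulLog, Real.log_inv]; ring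
  rw [h2] at h1
  have h3 := mul_le_mul_of_nonneg_left h1 hN.le
  rw [← mul_assoc, mul_inv_cancel₀ hN.ne', one_mul] at h3
  refine h3.trans (le_of_eq ?_)
  field_simp
  ring

/-- second moment -/
def MM {ι : Type*} [Fintype ι] (w : (ι → ℝ) → ℝ) : ℝ := ∫ z, (1 + ‖z‖ ^ 2) * w z

theorem MM_nonneg : 0 ≤ MM w := integral_nonneg fun z => by
  have := h.pos z
  positivity

open Classical in
theorem pout_le {m : ℕ} (hm : 0 < m) : pout w m ≤ MM w / m ^ 2 := by
  have hm' : (0 : ℝ) < m := by exact_mod_cast hm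
  set A : Set (ι → ℝ) := {z | (m : ℝ) ≤ ‖z‖} with hA
  have hAm : MeasurableSet A := measurableSet_le measurable_const measurable_norm
  have h1 : pout w m ≤ ∫ z in A, w z := by
    have h2 : ∀ s : ι → Fin (2 * m ^ 2 + 1), (if Inner m s then 0 else PP w m s)
        ≤ ∫ z in cell m s, A.indicator w z := by
      intro s
      split_ifs with hs
      · exact integral_nonneg fun z => Set.indicator_nonneg (fun z _ => (h.pos z).le) z
      · refine le_of_eq (setIntegral_congr_fun (measurableSet_cell m s) fun z hz => ?_)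
        have : z ∈ A := by
          rw [← mem_cell.1 hz, inner_iff] at hs
          push Not at hs
          obtain ⟨i, hi⟩ := hs
          have h3 : |z i| ≤ ‖z‖ := norm_le_pi_norm z i
          exact hi.trans h3
        rw [Set.indicator_of_mem this]
    have hint : Integrable (A.indicator w) := h.integrable.indicator hAm
    have h3 := integral_iUnion_fintype (μ := (volume : Measure (ι → ℝ))) (f := A.indicator w)
      (s := fun s : ι → Fin (2 * m ^ 2 + 1) => cell m s) (fun s => measurableSet_cell m s)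
      (fun s t hst => by
        rw [Function.onFun, Set.disjoint_left]
        intro z hz hz'
        rw [mem_cell] at hz hz'
        exact hst (hz.symm.trans hz')) (fun s => hint.integrableOn)
    have h4 : (⋃ s : ι → Fin (2 * m ^ 2 + 1), cell m s) = (Set.univ : Set (ι → ℝ)) :=
      Set.eq_univ_of_forall fun z => Set.mem_iUnion.2 ⟨code m z, mem_cell.2 rfl⟩
    rw [h4, setIntegral_univ, integral_indicator hAm] at h3
    rw [h3]
    exact Finset.sum_le_sum fun s _ => h2 s
  refine h1.trans ?_
  rw [le_div_iff₀ (by positivity), mul_comm, ← integral_const_mul]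
  calc ∫ z in A, (m : ℝ) ^ 2 * w z ≤ ∫ z in A, (1 + ‖z‖ ^ 2) * w z := by
        refine setIntegral_mono_on (h.integrable.const_mul _).integrableOn
          h.integrable_mul.integrableOn hAm fun z hz => ?_
        have h5 : (m : ℝ) ≤ ‖z‖ := hz
        have h6 := h.pos z
        have h7 : (m : ℝ) ^ 2 ≤ 1 + ‖z‖ ^ 2 := by nlinarith
        gcongr
    _ ≤ MM w := by
        refine setIntegral_le_integral h.integrable_mul (ae_of_all _ fun z => ?_)
        have := h.pos z
        positivity

open Classical in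
theorem pout_nonneg (m : ℕ) : 0 ≤ pout w m := by
  refine Finset.sum_nonneg fun s _ => ?_
  split_ifs
  · exact le_rfl
  · exact h.PP_nonneg m s

open Classical in
theorem outer_le (m : ℕ) :
    ∑ s : ι → Fin (2 * m ^ 2 + 1), (if Inner m s then 0 else Real.negMulLog (PP w m s))
      ≤ Real.negMulLog (pout w m) + pout w m * (Fintype.card ι * Real.log (2 * m ^ 2 + 1)) := by
  have h1 := sum_negMulLog_le (fun s : ι → Fin (2 * m ^ 2 + 1) =>
    if Inner m s then 0 else PP w m s) (fun s => by
      split_ifs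
      · exact le_rfl
      · exact h.PP_nonneg m s)
  have h2 : ∀ s : ι → Fin (2 * m ^ 2 + 1),
      (if Inner m s then 0 else Real.negMulLog (PP w m s))
      = Real.negMulLog (if Inner m s then 0 else PP w m s) := by
    intro s
    split_ifs <;> simp
  simp_rw [h2]
  refine h1.trans (le_of_eq ?_)
  simp only [Fintype.card_pi, Fintype.card_fin, Finset.prod_const, Finset.card_univ]
  rw [pout]
  push_cast
  rw [Real.log_pow]

open Classical in
theorem outer_nonneg (m : ℕ) :
    0 ≤ ∑ s : ι → Fin (2 * m ^ 2 + 1), (if Inner m s then 0 else Real.negMulLog (PP w m s)) := by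
  refine Finset.sum_nonneg fun s _ => ?_
  split_ifs
  · exact le_rfl
  · exact Real.negMulLog_nonneg (h.PP_nonneg m s) (h.PP_le_one m s)

theorem tendsto_pout_log {g : ℕ → ℝ} (c : ℝ) (hg0 : ∀ m, 0 ≤ g m)
    (hg : ∀ᶠ m : ℕ in atTop, g m ≤ c * m) :
    Tendsto (fun m => pout w m * g m) atTop (𝓝 0) := by
  have h1 : Tendsto (fun m : ℕ => MM w * c * (1 / (m : ℝ))) atTop (𝓝 0) := by
    have := (tendsto_one_div_atTop_nhds_zero_nat (𝕜 := ℝ)).const_mul (MM w * c)
    simpa using this
  refine tendsto_of_tendsto_of_tendsto_of_le_of_le' tendsto_const_nhds h1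
    (Eventually.of_forall fun m => mul_nonneg (h.pout_nonneg m) (hg0 m)) ?_
  filter_upwards [hg, eventually_gt_atTop 0] with m h2 hm
  have hm' : (0 : ℝ) < m := by exact_mod_cast hm
  have h3 := h.pout_le hm
  have h4 := h.pout_nonneg m
  have h5 := h.MM_nonneg
  calc pout w m * g m ≤ (MM w / m ^ 2) * (c * m) := by
        have := hg0 m
        gcongr
    _ = _ := by field_simp

theorem tendsto_pout : Tendsto (fun m => pout w m) atTop (𝓝 0) := by
  have := h.tendsto_pout_log (g := fun _ => 1) 1 (fun _ => zero_le_one) (by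
    filter_upwards [eventually_ge_atTop 1] with m hm
    have : (1 : ℝ) ≤ m := by exact_mod_cast hm
    linarith)
  simpa using this

/-- **Rényi's theorem** for regular densities. -/
theorem tendsto_entropy :
    Tendsto (fun m : ℕ => ∑ s : ι → Fin (2 * m ^ 2 + 1), Real.negMulLog (PP w m s)
      - Fintype.card ι * Real.log m) atTop (𝓝 (∫ z, Real.negMulLog (w z))) := by
  classical
  have e1 : Tendsto (fun m : ℕ => pout w m * (Fintype.card ι * Real.log m)) atTop (𝓝 0) := by
    refine h.tendsto_pout_log (Fintype.card ι) (fun m => ?_) (Eventually.of_forall fun m => ?_)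
    · rcases Nat.eq_zero_or_pos m with rfl | hm
      · simp
      · have : (1 : ℝ) ≤ m := by exact_mod_cast hm
        have := Real.log_nonneg this
        positivity
    · have : Real.log (m : ℝ) ≤ m := Real.log_le_self (by positivity)
      gcongr
  have e2 : Tendsto (fun m : ℕ => pout w m * (Fintype.card ι * Real.log (2 * m ^ 2 + 1))) atTop
      (𝓝 0) := by
    refine h.tendsto_pout_log (Fintype.card ι * 4) (fun m => ?_) (Eventually.of_forall fun m => ?_)
    · have : (1 : ℝ) ≤ 2 * m ^ 2 + 1 := by nlinarith [sq_nonneg (m : ℝ)]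
      have := Real.log_nonneg this
      positivity
    · have h1 : Real.log (2 * (m : ℝ) ^ 2 + 1) ≤ Real.log ((2 * m + 1) ^ 2) := by
        refine Real.log_le_log (by positivity) ?_
        have : (0 : ℝ) ≤ m := by positivity
        nlinarith
      have h2 : Real.log ((2 * (m : ℝ) + 1) ^ 2) ≤ 4 * m := by
        rw [Real.log_pow]
        have := Real.log_le_sub_one_of_pos (show (0 : ℝ) < 2 * m + 1 by positivity)
        push_cast
        linarith
      have h3 := h1.trans h2
      calc (Fintype.card ι : ℝ) * Real.log (2 * m ^ 2 + 1) ≤ Fintype.card ι * (4 * m) := by gcongr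
        _ = _ := by ring
  have e3 : Tendsto (fun m : ℕ => Real.negMulLog (pout w m)) atTop (𝓝 0) := by
    have := (Real.continuous_negMulLog.tendsto 0).comp h.tendsto_pout
    simpa [Function.comp_def] using this
  have e4 : Tendsto (fun m : ℕ => ∑ s : ι → Fin (2 * m ^ 2 + 1),
      (if Inner m s then 0 else Real.negMulLog (PP w m s))) atTop (𝓝 0) := by
    refine tendsto_of_tendsto_of_tendsto_of_le_of_le tendsto_const_nhds
      (by simpa using e3.add e2) (fun m => h.outer_nonneg m) (fun m => h.outer_le m)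
  have e5 := (h.tendsto_int_gg.sub e1).add e4
  simp only [sub_zero, add_zero] at e5
  refine e5.congr' ?_
  filter_upwards [eventually_gt_atTop 0] with m hm
  rw [h.entropy_split hm]
  ring

end Reg

end Vale.Agent.P156.H877
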