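import Vale.Agent.P156.H877.E13
import Vale.Agent.P156.H877.Renyi

/-!
# (E2) The entropy of the quantised smoothed law
-/

open MeasureTheory Matrix Filter Topology ProbabilityTheory
open scoped ENNReal MatrixOrder

noncomputable section

namespace Vale.Agent.P156.H877

variable {ι : Type*} [Fintype ι] [DecidableEq ι] {X : Measure (ι → ℝ)} [IsProbabilityMeasure X]
  {S : Matrix ι ι ℝ}

omit [DecidableEq ι] in
theorem integrable_norm_sq_of_sum {X : Measure (ι → ℝ)} (hX : Integrable (fun x => ∑ i, x i ^ 2) X) :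
    Integrable (fun x => ‖x‖ ^ 2) X := by
  refine hX.mono' (by fun_prop : Continuous fun x : ι → ℝ => ‖x‖ ^ 2).aestronglyMeasurable
    (ae_of_all _ fun x => ?_)
  rw [Real.norm_eq_abs, abs_of_nonneg (by positivity)]
  exact norm_sq_le_sum x

/-- The smoothed densities are regular. -/
theorem exists_reg (hS : S.PosDef) (hX : Integrable (fun x => ‖x‖ ^ 2) X) :
    ∃ (V : (ι → ℝ) → ℝ) (K : ℝ), Reg (dens X S) V K := by
  obtain ⟨a, b, h⟩ := exists_Bd hS
  obtain ⟨R, -, hR⟩ := exists_radius X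
  obtain ⟨K, hK0, hK⟩ := Bd.abs_log_le hR a b (cS S) (cS S)
  refine ⟨fun z => (cS S * Real.exp (a / 2)) * VV X (a / 4) z, K, continuous_dens hS,
    dens_pos hS, integral_dens hS, fun z y hy => h.dens_le_VV hy, ?_, hK0.le, hK S h⟩
  have h1 := (integrable_VV (X := X) (α := a / 4) (by have := h.a0; positivity) hX).const_mul
    (cS S * Real.exp (a / 2))
  refine h1.congr (ae_of_all _ fun z => ?_)
  simp only
  ring

/-- (E2) -/
theorem tendsto_entropy_sm (hS : S.PosDef) (hX : Integrable (fun x => ‖x‖ ^ 2) X) :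
    Tendsto (fun m : ℕ => ∑ s : ι → Fin (2 * m ^ 2 + 1),
      Real.negMulLog ((sm X S).real {x | ∀ i, qt m (x i) = s i})
      - Fintype.card ι * Real.log m) atTop (𝓝 (hh X S)) := by
  obtain ⟨V, K, h⟩ := exists_reg hS hX
  have h1 : ∀ (m : ℕ) (s : ι → Fin (2 * m ^ 2 + 1)),
      (sm X S).real {x | ∀ i, qt m (x i) = s i} = PP (dens X S) m s := fun m s =>
    sm_toReal hS (measurableSet_cell m s)
  simp_rw [h1]
  exact h.tendsto_entropy

/-- The second moment of the smoothed law is finite. -/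
theorem integrable_mul_dens (hS : S.PosDef) (hX : Integrable (fun x => ‖x‖ ^ 2) X) :
    Integrable (fun z => (1 + ‖z‖ ^ 2) * dens X S z) := by
  obtain ⟨V, K, h⟩ := exists_reg hS hX
  exact h.integrable_mul

end Vale.Agent.P156.H877
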