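import Vale.Agent.P156.H877.Gk
import Mathlib.MeasureTheory.Integral.Pi
import Mathlib.Analysis.SpecialFunctions.Gaussian.GaussianIntegral

/-!
# Uniform bounds for Gaussian-smoothed densities
-/

open MeasureTheory Matrix Filter Topology ProbabilityTheory
open scoped ENNReal MatrixOrder

noncomputable section

namespace Vale.Agent.P156.H877

variable {ι : Type*} [Fintype ι]

/-! ### Gaussian integrals in the sup norm -/

theorem sum_sq_le (y : ι → ℝ) : ∑ i, y i ^ 2 ≤ (Fintype.card ι + 1 : ℝ) * ‖y‖ ^ 2 := by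
  calc ∑ i, y i ^ 2 ≤ ∑ _i : ι, ‖y‖ ^ 2 := by
        refine Finset.sum_le_sum fun i _ => ?_
        have : |y i| ≤ ‖y‖ := norm_le_pi_norm y i
        nlinarith [abs_nonneg (y i), sq_abs (y i)]
    _ = (Fintype.card ι : ℝ) * ‖y‖ ^ 2 := by simp
    _ ≤ _ := by nlinarith [sq_nonneg ‖y‖]

theorem norm_sq_le_sum (y : ι → ℝ) : ‖y‖ ^ 2 ≤ ∑ i, y i ^ 2 := by
  have h : ‖y‖ ≤ √(∑ i, y i ^ 2) := by
    refine (pi_norm_le_iff_of_nonneg (Real.sqrt_nonneg _)).2 fun i => ?_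
    rw [Real.norm_eq_abs]
    refine Real.le_sqrt_of_sq_le ?_
    rw [sq_abs]
    exact Finset.single_le_sum (f := fun i => y i ^ 2) (fun i _ => sq_nonneg (y i))
      (Finset.mem_univ i)
  have h0 : 0 ≤ ∑ i, y i ^ 2 := Finset.sum_nonneg fun i _ => sq_nonneg _
  calc ‖y‖ ^ 2 ≤ (√(∑ i, y i ^ 2)) ^ 2 := by gcongr
    _ = _ := Real.sq_sqrt h0

theorem integrable_exp_norm {α : ℝ} (hα : 0 < α) :
    Integrable fun y : ι → ℝ => Real.exp (-(α * ‖y‖ ^ 2)) := by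
  have hn : (0 : ℝ) < Fintype.card ι + 1 := by positivity
  set β : ℝ := α / (Fintype.card ι + 1) with hβ
  have hβ0 : 0 < β := by positivity
  have h1 : Integrable fun y : ι → ℝ => ∏ i, Real.exp (-β * y i ^ 2) := by
    exact Integrable.fintype_prod (f := fun (_ : ι) (x : ℝ) => Real.exp (-β * x ^ 2))
      (fun _ => integrable_exp_neg_mul_sq hβ0)
  refine h1.mono' (by fun_prop : Continuous fun y : ι → ℝ =>
    Real.exp (-(α * ‖y‖ ^ 2))).aestronglyMeasurable (ae_of_all _ fun y => ?_)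
  rw [Real.norm_eq_abs, abs_of_pos (Real.exp_pos _), ← Real.exp_sum]
  refine Real.exp_le_exp.2 ?_
  have h2 := sum_sq_le y
  rw [← Finset.mul_sum]
  have h3 : β * ∑ i, y i ^ 2 ≤ β * ((Fintype.card ι + 1 : ℝ) * ‖y‖ ^ 2) := by gcongr
  have h4 : β * ((Fintype.card ι + 1 : ℝ) * ‖y‖ ^ 2) = α * ‖y‖ ^ 2 := by
    rw [hβ]; field_simp
  linarith

theorem one_add_mul_exp_le {α : ℝ} (hα : 0 < α) (t : ℝ) (ht : 0 ≤ t) :
    (1 + t) * Real.exp (-(α * t)) ≤ (1 + 2 / α) * Real.exp (-(α / 2 * t)) := by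
  have h1 : Real.exp (-(α * t)) = Real.exp (-(α / 2 * t)) * Real.exp (-(α / 2 * t)) := by
    rw [← Real.exp_add]; congr 1; ring
  have h2 : α / 2 * t + 1 ≤ Real.exp (α / 2 * t) := Real.add_one_le_exp _
  have h3 : Real.exp (α / 2 * t) * Real.exp (-(α / 2 * t)) = 1 := by
    rw [← Real.exp_add]; simp
  have h4 : (1 + t) * Real.exp (-(α / 2 * t)) ≤ 1 + 2 / α := by
    have h5 : 1 + t ≤ (1 + 2 / α) * Real.exp (α / 2 * t) := by
      have h6 : (1 + 2 / α) * (α / 2 * t + 1) ≤ (1 + 2 / α) * Real.exp (α / 2 * t) := by gcongr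
      have h7 : (1 + 2 / α) * (α / 2 * t + 1) = 1 + t + (α / 2 * t + 2 / α) := by
        field_simp
        ring
      have : 0 ≤ α / 2 * t + 2 / α := by positivity
      linarith
    calc (1 + t) * Real.exp (-(α / 2 * t))
        ≤ ((1 + 2 / α) * Real.exp (α / 2 * t)) * Real.exp (-(α / 2 * t)) := by gcongr
      _ = _ := by rw [mul_assoc, h3, mul_one]
  calc (1 + t) * Real.exp (-(α * t))
      = ((1 + t) * Real.exp (-(α / 2 * t))) * Real.exp (-(α / 2 * t)) := by rw [h1]; ring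
    _ ≤ _ := by gcongr

theorem integrable_exp_norm_mul {α : ℝ} (hα : 0 < α) :
    Integrable fun y : ι → ℝ => (1 + ‖y‖ ^ 2) * Real.exp (-(α * ‖y‖ ^ 2)) := by
  refine ((integrable_exp_norm (ι := ι) (half_pos hα)).const_mul (1 + 2 / α)).mono'
    (by fun_prop : Continuous fun y : ι → ℝ =>
      (1 + ‖y‖ ^ 2) * Real.exp (-(α * ‖y‖ ^ 2))).aestronglyMeasurable (ae_of_all _ fun y => ?_)
  rw [Real.norm_eq_abs, abs_of_nonneg (by positivity)]
  exact one_add_mul_exp_le hα _ (by positivity)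

/-- The dominating function. -/
def VV (X : Measure (ι → ℝ)) (α : ℝ) (z : ι → ℝ) : ℝ := ∫ x, Real.exp (-(α * ‖z - x‖ ^ 2)) ∂X

variable {X : Measure (ι → ℝ)} [IsProbabilityMeasure X]

omit [IsProbabilityMeasure X] in
theorem VV_nonneg (α : ℝ) (z : ι → ℝ) : 0 ≤ VV X α z := integral_nonneg fun _ => (Real.exp_pos _).le

theorem integrable_VV {α : ℝ} (hα : 0 < α) (hX : Integrable (fun x => ‖x‖ ^ 2) X) :
    Integrable fun z => (1 + ‖z‖ ^ 2) * VV X α z := by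
  have key : Integrable (fun p : (ι → ℝ) × (ι → ℝ) =>
      (1 + ‖p.1‖ ^ 2) * Real.exp (-(α * ‖p.1 - p.2‖ ^ 2))) (volume.prod X) := by
    have hc : Continuous (fun p : (ι → ℝ) × (ι → ℝ) =>
      (1 + ‖p.1‖ ^ 2) * Real.exp (-(α * ‖p.1 - p.2‖ ^ 2))) := by fun_prop
    set A : ℝ := ∫ u : ι → ℝ, (1 + ‖u‖ ^ 2) * Real.exp (-(α * ‖u‖ ^ 2)) with hA
    have hshift : ∀ x : ι → ℝ, ∀ u : ι → ℝ, (1 + ‖u + x‖ ^ 2) * Real.exp (-(α * ‖u‖ ^ 2))
        ≤ (2 * (1 + ‖x‖ ^ 2)) * ((1 + ‖u‖ ^ 2) * Real.exp (-(α * ‖u‖ ^ 2))) := by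
      intro x u
      have h1 : ‖u + x‖ ≤ ‖u‖ + ‖x‖ := norm_add_le _ _
      have h2 : 1 + ‖u + x‖ ^ 2 ≤ 2 * (1 + ‖x‖ ^ 2) * (1 + ‖u‖ ^ 2) := by
        have : ‖u + x‖ ^ 2 ≤ (‖u‖ + ‖x‖) ^ 2 := by gcongr
        nlinarith [sq_nonneg (‖u‖ - ‖x‖), sq_nonneg (‖u‖ * ‖x‖), norm_nonneg u, norm_nonneg x]
      calc (1 + ‖u + x‖ ^ 2) * Real.exp (-(α * ‖u‖ ^ 2))
          ≤ (2 * (1 + ‖x‖ ^ 2) * (1 + ‖u‖ ^ 2)) * Real.exp (-(α * ‖u‖ ^ 2)) := by gcongr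
        _ = _ := by ring
    have hint : ∀ x : ι → ℝ, Integrable fun u : ι → ℝ =>
        (1 + ‖u + x‖ ^ 2) * Real.exp (-(α * ‖u‖ ^ 2)) := by
      intro x
      refine ((integrable_exp_norm_mul (ι := ι) hα).const_mul (2 * (1 + ‖x‖ ^ 2))).mono'
        (by fun_prop : Continuous _).aestronglyMeasurable (ae_of_all _ fun u => ?_)
      rw [Real.norm_eq_abs, abs_of_nonneg (by positivity)]
      exact hshift x u
    have hint2 : ∀ x : ι → ℝ, Integrable fun z : ι → ℝ =>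
        (1 + ‖z‖ ^ 2) * Real.exp (-(α * ‖z - x‖ ^ 2)) := by
      intro x
      have := (hint x).comp_sub_right x
      simpa using this
    rw [integrable_prod_iff' hc.aestronglyMeasurable]
    refine ⟨ae_of_all _ fun x => hint2 x, ?_⟩
    refine (((integrable_const (1 : ℝ)).add hX).const_mul (2 * A)).mono' ?_
      (ae_of_all _ fun x => ?_)
    · have := (hc.norm.comp continuous_swap).aestronglyMeasurable (μ := X.prod volume)
      exact this.integral_prod_right'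
    · rw [Real.norm_eq_abs, abs_of_nonneg (integral_nonneg fun _ => norm_nonneg _)]
      have h3 : ∫ z : ι → ℝ, ‖(1 + ‖z‖ ^ 2) * Real.exp (-(α * ‖z - x‖ ^ 2))‖
          = ∫ u : ι → ℝ, (1 + ‖u + x‖ ^ 2) * Real.exp (-(α * ‖u‖ ^ 2)) := by
        rw [← integral_sub_right_eq_self (fun u : ι → ℝ =>
          (1 + ‖u + x‖ ^ 2) * Real.exp (-(α * ‖u‖ ^ 2))) x]
        refine integral_congr_ae (ae_of_all _ fun z => ?_)
        simp only [sub_add_cancel]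
        rw [Real.norm_eq_abs, abs_of_nonneg (by positivity)]
      rw [h3]
      calc ∫ u : ι → ℝ, (1 + ‖u + x‖ ^ 2) * Real.exp (-(α * ‖u‖ ^ 2))
          ≤ ∫ u : ι → ℝ, (2 * (1 + ‖x‖ ^ 2)) * ((1 + ‖u‖ ^ 2) * Real.exp (-(α * ‖u‖ ^ 2))) :=
            integral_mono (hint x) ((integrable_exp_norm_mul (ι := ι) hα).const_mul _)
              (hshift x)
        _ = 2 * A * (1 + ‖x‖ ^ 2) := by rw [integral_const_mul, ← hA]; ring
  have := key.integral_prod_left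
  refine this.congr (ae_of_all _ fun z => ?_)
  simp only [VV]
  rw [integral_const_mul]

/-! ### bounds on the density -/

variable [DecidableEq ι]

/-- Quantitative bounds on a covariance matrix. -/
structure Bd (S : Matrix ι ι ℝ) (a b c C : ℝ) : Prop where
  pd : S.PosDef
  a0 : 0 < a
  b0 : 0 < b
  c0 : 0 < c
  lo : ∀ y : ι → ℝ, a * ‖y‖ ^ 2 ≤ y ⬝ᵥ (S⁻¹ *ᵥ y)
  hi : ∀ y : ι → ℝ, y ⬝ᵥ (S⁻¹ *ᵥ y) ≤ b * ‖y‖ ^ 2
  cl : c ≤ cS S
  cu : cS S ≤ C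

variable {S : Matrix ι ι ℝ} {a b c C : ℝ}

theorem exists_Bd (hS : S.PosDef) : ∃ a b : ℝ, Bd S a b (cS S) (cS S) := by
  obtain ⟨a, ha, h⟩ := quad_lower hS.inv
  refine ⟨a, (∑ i, ∑ j, |S⁻¹ i j|) + 1, hS, ha, ?_, cS_pos hS, h, fun y => ?_, le_rfl, le_rfl⟩
  · positivity
  · have := abs_quad_le S⁻¹ y
    have h2 := le_abs_self (y ⬝ᵥ (S⁻¹ *ᵥ y))
    nlinarith [sq_nonneg ‖y‖]

/-- Upper bound on a unit neighbourhood. -/
theorem Bd.dens_le_VV (h : Bd S a b c C) {z y : ι → ℝ} (hzy : ‖y - z‖ ≤ 1) :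
    dens X S y ≤ (C * Real.exp (a / 2)) * VV X (a / 4) z := by
  have hpt : ∀ x : ι → ℝ, gk S (y - x)
      ≤ (C * Real.exp (a / 2)) * Real.exp (-(a / 4 * ‖z - x‖ ^ 2)) := by
    intro x
    have h1 : ‖z - x‖ ≤ ‖y - x‖ + 1 := by
      have : z - x = (y - x) - (y - z) := by abel
      rw [this]
      exact (norm_sub_le _ _).trans (by linarith)
    have h2 : ‖z - x‖ ^ 2 ≤ 2 * ‖y - x‖ ^ 2 + 2 := by
      have : ‖z - x‖ ^ 2 ≤ (‖y - x‖ + 1) ^ 2 := by gcongr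
      nlinarith [sq_nonneg (‖y - x‖ - 1)]
    have h3 := h.lo (y - x)
    have ha := h.a0
    rw [gk_eq, mul_assoc, ← Real.exp_add]
    have h4 : -((y - x) ⬝ᵥ (S⁻¹ *ᵥ (y - x))) / 2 ≤ a / 2 + -(a / 4 * ‖z - x‖ ^ 2) := by
      nlinarith
    have hc := cS_pos h.pd
    have h5 : 0 ≤ C := hc.le.trans h.cu
    have h6 := h.cu
    gcongr
  have hi : Integrable (fun x => Real.exp (-(a / 4 * ‖z - x‖ ^ 2))) X := by
    refine (integrable_const (1 : ℝ)).mono' (by fun_prop : Continuous _).aestronglyMeasurable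
      (ae_of_all _ fun x => ?_)
    rw [Real.norm_eq_abs, abs_of_pos (Real.exp_pos _)]
    refine Real.exp_le_one_iff.2 ?_
    have := h.a0
    have : 0 ≤ a / 4 * ‖z - x‖ ^ 2 := by positivity
    linarith
  have h9 := integral_mono (integrable_gk_sub h.pd y) (hi.const_mul _) hpt
  rw [integral_const_mul] at h9
  exact h9

omit [DecidableEq ι] in
/-- Half of the mass of `X` is in a ball. -/
theorem exists_radius (X : Measure (ι → ℝ)) [IsProbabilityMeasure X] :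
    ∃ R : ℝ, 0 ≤ R ∧ 1 / 2 ≤ (X {x | ‖x‖ ≤ R}).toReal := by
  have h1 : Tendsto (fun n : ℕ => X {x : ι → ℝ | ‖x‖ ≤ n}) atTop (𝓝 (X (⋃ n : ℕ, {x : ι → ℝ | ‖x‖ ≤ n}))) := by
    refine tendsto_measure_iUnion_atTop fun m n hmn x hx => ?_
    have hx' : ‖x‖ ≤ m := hx
    exact hx'.trans (by exact_mod_cast hmn)
  have h2 : (⋃ n : ℕ, {x : ι → ℝ | ‖x‖ ≤ n}) = Set.univ := by
    refine Set.eq_univ_of_forall fun x => ?_
    obtain ⟨n, hn⟩ := exists_nat_ge ‖x‖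
    exact Set.mem_iUnion.2 ⟨n, hn⟩
  rw [h2, measure_univ] at h1
  have h3 := (ENNReal.tendsto_toReal ENNReal.one_ne_top).comp h1
  have h4 : ∀ᶠ n : ℕ in atTop, 1 / 2 < (X {x : ι → ℝ | ‖x‖ ≤ n}).toReal :=
    h3.eventually (lt_mem_nhds (by norm_num))
  obtain ⟨n, hn⟩ := h4.exists
  exact ⟨n, by positivity, hn.le⟩

theorem Bd.le_dens (h : Bd S a b c C) {R : ℝ}
    (hR : 1 / 2 ≤ (X {x | ‖x‖ ≤ R}).toReal) (z : ι → ℝ) :
    c / 2 * Real.exp (-(b * (‖z‖ ^ 2 + R ^ 2))) ≤ dens X S z := by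
  have hb := h.b0
  have hc := h.c0
  have hm : MeasurableSet {x : ι → ℝ | ‖x‖ ≤ R} := measurableSet_le measurable_norm measurable_const
  have hpt : ∀ x ∈ {x : ι → ℝ | ‖x‖ ≤ R},
      c * Real.exp (-(b * (‖z‖ ^ 2 + R ^ 2))) ≤ gk S (z - x) := by
    intro x hx
    have hx' : ‖x‖ ≤ R := hx
    rw [gk_eq]
    have h1 : ‖z - x‖ ≤ ‖z‖ + ‖x‖ := norm_sub_le _ _
    have h2 : ‖z - x‖ ^ 2 ≤ 2 * (‖z‖ ^ 2 + R ^ 2) := by
      have h5 : ‖z - x‖ ^ 2 ≤ (‖z‖ + ‖x‖) ^ 2 := by gcongr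
      have h6 : ‖x‖ ^ 2 ≤ R ^ 2 := by gcongr
      nlinarith [sq_nonneg (‖z‖ - ‖x‖)]
    have h3 := h.hi (z - x)
    have h4 : -(b * (‖z‖ ^ 2 + R ^ 2)) ≤ -((z - x) ⬝ᵥ (S⁻¹ *ᵥ (z - x))) / 2 := by
      have : b * ‖z - x‖ ^ 2 ≤ b * (2 * (‖z‖ ^ 2 + R ^ 2)) := by gcongr
      linarith
    have hcS := cS_pos h.pd
    gcongr
    exact h.cl
  calc c / 2 * Real.exp (-(b * (‖z‖ ^ 2 + R ^ 2)))
      = (1 / 2) * (c * Real.exp (-(b * (‖z‖ ^ 2 + R ^ 2)))) := by ring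
    _ ≤ (X {x | ‖x‖ ≤ R}).toReal * (c * Real.exp (-(b * (‖z‖ ^ 2 + R ^ 2)))) := by gcongr
    _ = ∫ x in {x | ‖x‖ ≤ R}, c * Real.exp (-(b * (‖z‖ ^ 2 + R ^ 2))) ∂X := by
        rw [setIntegral_const]; rfl
    _ ≤ ∫ x in {x | ‖x‖ ≤ R}, gk S (z - x) ∂X :=
        setIntegral_mono_on (integrable_const _).integrableOn
          (integrable_gk_sub h.pd z).integrableOn hm hpt
    _ ≤ ∫ x, gk S (z - x) ∂X := by
        refine setIntegral_le_integral (integrable_gk_sub h.pd z) (ae_of_all _ fun x => ?_)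
        exact (gk_pos h.pd _).le

/-- `|log dens| ≤ K (1 + |z|^2)`, with `K` depending only on the bounds. -/
theorem Bd.abs_log_le {R : ℝ}
    (hR : 1 / 2 ≤ (X {x | ‖x‖ ≤ R}).toReal) (a b c C : ℝ) :
    ∃ K : ℝ, 0 < K ∧ ∀ S : Matrix ι ι ℝ, Bd S a b c C → ∀ z : ι → ℝ,
      |Real.log (dens X S z)| ≤ K * (1 + ‖z‖ ^ 2) := by
  refine ⟨|Real.log C| + |Real.log (c / 2)| + |b| * (1 + R ^ 2) + 1, by positivity,
    fun S h z => ?_⟩
  have hpos := dens_pos (X := X) h.pd z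
  have hb := h.b0
  have hc := h.c0
  have hC : 0 < C := (cS_pos h.pd).trans_le h.cu
  have h1 : Real.log (dens X S z) ≤ |Real.log C| :=
    (Real.log_le_log hpos ((dens_le h.pd z).trans h.cu)).trans (le_abs_self _)
  have h2 : Real.log (c / 2 * Real.exp (-(b * (‖z‖ ^ 2 + R ^ 2)))) ≤ Real.log (dens X S z) :=
    Real.log_le_log (by positivity) (h.le_dens hR z)
  rw [Real.log_mul (by positivity) (Real.exp_pos _).ne', Real.log_exp] at h2
  have h3 := neg_abs_le (Real.log (c / 2))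
  have hbb : |b| = b := abs_of_pos hb
  rw [hbb]
  have hz : 0 ≤ ‖z‖ ^ 2 := sq_nonneg _
  rw [abs_le]
  constructor
  · nlinarith [abs_nonneg (Real.log C), abs_nonneg (Real.log (c / 2)), sq_nonneg R,
      mul_nonneg hb.le hz, mul_nonneg (mul_nonneg hb.le hz) (sq_nonneg R),
      mul_nonneg (abs_nonneg (Real.log (c / 2))) hz, mul_nonneg (abs_nonneg (Real.log C)) hz]
  · nlinarith [abs_nonneg (Real.log C), abs_nonneg (Real.log (c / 2)), sq_nonneg R,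
      mul_nonneg hb.le hz, mul_nonneg (mul_nonneg hb.le hz) (sq_nonneg R),
      mul_nonneg hb.le (sq_nonneg R),
      mul_nonneg (abs_nonneg (Real.log (c / 2))) hz, mul_nonneg (abs_nonneg (Real.log C)) hz]

end Vale.Agent.P156.H877
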