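import Mathlib.Analysis.SpecialFunctions.Log.NegMulLog
import Mathlib.MeasureTheory.Constructions.Pi
import Mathlib.MeasureTheory.Measure.Lebesgue.Basic
import Mathlib.MeasureTheory.Function.Floor

/-!
# The coordinatewise quantiser: cells and their volumes
-/

open MeasureTheory Filter Topology
open scoped ENNReal

noncomputable section

namespace Vale.Agent.P156.H877

/-- The coordinatewise quantiser with mesh `1/m` and window `(-m,m)`. -/
def qt (m : ℕ) (x : ℝ) : Fin (2 * m ^ 2 + 1) :=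
  if |x| < m then ⟨min ⌊(x + m) * m⌋₊ (2 * m ^ 2), by omega⟩ else Fin.last (2 * m ^ 2)

theorem measurable_qt (m : ℕ) : Measurable (qt m) := by
  unfold qt
  refine Measurable.ite (measurableSet_lt (by fun_prop) measurable_const) ?_ measurable_const
  have h : Measurable fun x : ℝ => min ⌊(x + m) * m⌋₊ (2 * m ^ 2) :=
    (Nat.measurable_floor.comp (by fun_prop)).min measurable_const
  have h2 : ∀ x : ℝ, min ⌊(x + m) * m⌋₊ (2 * m ^ 2) < 2 * m ^ 2 + 1 := fun x => by omega
  refine measurable_to_countable' fun y => ?_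
  have : (fun x : ℝ => (⟨min ⌊(x + m) * m⌋₊ (2 * m ^ 2), h2 x⟩ : Fin (2 * m ^ 2 + 1))) ⁻¹' {y}
      = (fun x : ℝ => min ⌊(x + m) * m⌋₊ (2 * m ^ 2)) ⁻¹' {(y : ℕ)} := by
    ext x
    simp [Fin.ext_iff]
  rw [this]
  exact h (measurableSet_singleton _)

theorem qt_eq_last {m : ℕ} {x : ℝ} (h : (m : ℝ) ≤ |x|) : qt m x = Fin.last (2 * m ^ 2) := by
  rw [qt, if_neg (not_lt.2 h)]

theorem floor_lt {m : ℕ} {x : ℝ} (h : |x| < m) : ⌊(x + m) * m⌋₊ < 2 * m ^ 2 := by
  have hx := abs_lt.1 h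
  have hm : (0 : ℝ) < m := (abs_nonneg x).trans_lt h
  rw [Nat.floor_lt (by nlinarith)]
  push_cast
  nlinarith

theorem qt_val {m : ℕ} {x : ℝ} (h : |x| < m) : ((qt m x : Fin (2 * m ^ 2 + 1)) : ℕ) = ⌊(x + m) * m⌋₊ := by
  rw [qt, if_pos h]
  simp only
  exact min_eq_left (floor_lt h).le

theorem qt_ne_last {m : ℕ} {x : ℝ} (h : |x| < m) : qt m x ≠ Fin.last (2 * m ^ 2) := by
  intro h2
  have h3 := qt_val h
  rw [h2] at h3
  simp only [Fin.val_last] at h3
  exact absurd h3.symm (floor_lt h).ne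

/-- Inner cells are intervals of length `1/m`. -/
theorem volume_cell (m : ℕ) (s : Fin (2 * m ^ 2 + 1)) (hs : s ≠ Fin.last (2 * m ^ 2)) :
    volume {x : ℝ | qt m x = s} = ENNReal.ofReal (1 / m) := by
  have hlt : (s : ℕ) < 2 * m ^ 2 := by
    have h1 := s.2
    have h2 : (s : ℕ) ≠ 2 * m ^ 2 := fun h => hs (Fin.ext (by simpa using h))
    omega
  have hm0 : m ≠ 0 := by
    rintro rfl
    simp at hlt
  have hm : (0 : ℝ) < m := by positivity
  have hset : {x : ℝ | qt m x = s} = Set.Ico (-(m : ℝ) + s / m) (-(m : ℝ) + (s + 1) / m) ∩ Set.Ioi (-(m : ℝ)) := by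
    ext x
    simp only [Set.mem_ofPred_eq, Set.mem_inter_iff, Set.mem_Ico, Set.mem_Ioi]
    constructor
    · intro h
      have hx : |x| < m := by
        by_contra hx
        rw [qt_eq_last (not_lt.1 hx)] at h
        exact hs h.symm
      have h1 := qt_val hx
      rw [h] at h1
      have hx' := abs_lt.1 hx
      have h2 : 0 ≤ (x + m) * m := by nlinarith
      have h3 := (Nat.floor_eq_iff h2).1 h1.symm
      refine ⟨⟨?_, ?_⟩, hx'.1⟩
      · have : (s : ℝ) / m ≤ x + m := by rw [div_le_iff₀ hm]; exact h3.1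
        linarith
      · have : x + m < ((s : ℝ) + 1) / m := by rw [lt_div_iff₀ hm]; exact h3.2
        linarith
    · rintro ⟨⟨h1, h2⟩, h3⟩
      have h4 : (s : ℝ) + 1 ≤ 2 * m ^ 2 := by exact_mod_cast hlt
      have h5 : ((s : ℝ) + 1) / m ≤ 2 * m := by
        rw [div_le_iff₀ hm]
        nlinarith
      have hx : |x| < m := by
        rw [abs_lt]
        exact ⟨h3, by linarith⟩
      refine Fin.ext ?_
      rw [qt_val hx]
      have h6 : 0 ≤ (x + m) * m := by nlinarith
      rw [Nat.floor_eq_iff h6]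
      constructor
      · have : (s : ℝ) / m ≤ x + m := by linarith
        rwa [div_le_iff₀ hm] at this
      · have : x + m < ((s : ℝ) + 1) / m := by linarith
        rwa [lt_div_iff₀ hm] at this
  rw [hset]
  have hlen : (-(m : ℝ) + (s + 1) / m) - (-(m : ℝ) + s / m) = 1 / m := by ring
  have hs0 : (0 : ℝ) ≤ (s : ℝ) / m := by positivity
  apply le_antisymm
  · refine (measure_mono Set.inter_subset_left).trans ?_
    rw [Real.volume_Ico, hlen]
  · have : Set.Ioo (-(m : ℝ) + s / m) (-(m : ℝ) + (s + 1) / m)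
        ⊆ Set.Ico (-(m : ℝ) + s / m) (-(m : ℝ) + (s + 1) / m) ∩ Set.Ioi (-(m : ℝ)) := by
      intro x hx
      refine ⟨⟨hx.1.le, hx.2⟩, ?_⟩
      have := hx.1
      simp only [Set.mem_Ioi]
      linarith
    refine le_trans ?_ (measure_mono this)
    rw [Real.volume_Ioo, hlen]

/-- Two points of an inner cell are at distance at most `1/m`. -/
theorem dist_le_of_qt_eq {m : ℕ} {x y : ℝ} (hx : |x| < m) (h : qt m y = qt m x) :
    |y - x| ≤ 1 / m := by
  have hm : (0 : ℝ) < m := (abs_nonneg x).trans_lt hx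
  have hy : |y| < m := by
    by_contra hy
    rw [qt_eq_last (not_lt.1 hy)] at h
    exact qt_ne_last hx h.symm
  have h1 : ⌊(y + m) * m⌋₊ = ⌊(x + m) * m⌋₊ := by
    rw [← qt_val hx, ← qt_val hy, h]
  have hx' := abs_lt.1 hx
  have hy' := abs_lt.1 hy
  have hx0 : 0 ≤ (x + m) * m := by nlinarith
  have hy0 : 0 ≤ (y + m) * m := by nlinarith
  have h2 := (Nat.floor_eq_iff hx0).1 rfl
  have h3 := (Nat.floor_eq_iff hy0).1 h1
  rw [abs_le]
  constructor
  · have h6 : -(y - x) * m ≤ 1 := by nlinarith [h2.1, h2.2, h3.1, h3.2]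
    have h7 : -(y - x) ≤ 1 / m := by
      rw [le_div_iff₀ hm]
      exact h6
    linarith
  · have : (y - x) * m ≤ 1 := by nlinarith [h2.1, h2.2, h3.1, h3.2]
    rw [le_div_iff₀ hm]
    exact this

variable {ι : Type*} [Fintype ι]

/-- The code of a point. -/
def code (m : ℕ) (z : ι → ℝ) : ι → Fin (2 * m ^ 2 + 1) := fun i => qt m (z i)

omit [Fintype ι] in
theorem measurable_code (m : ℕ) : Measurable (code (ι := ι) m) :=
  measurable_pi_lambda _ fun i => (measurable_qt m).comp (measurable_pi_apply i)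

/-- The cells. -/
def cell (m : ℕ) (s : ι → Fin (2 * m ^ 2 + 1)) : Set (ι → ℝ) := {z | ∀ i, qt m (z i) = s i}

omit [Fintype ι] in
theorem mem_cell {m : ℕ} {s : ι → Fin (2 * m ^ 2 + 1)} {z : ι → ℝ} : z ∈ cell m s ↔ code m z = s := by
  simp [cell, code, funext_iff]

theorem measurableSet_cell (m : ℕ) (s : ι → Fin (2 * m ^ 2 + 1)) : MeasurableSet (cell m s) := by
  have : cell m s = code m ⁻¹' {s} := by
    ext z
    simp [mem_cell]
  rw [this]
  exact measurable_code m (measurableSet_singleton _)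

/-- Inner codes. -/
def Inner (m : ℕ) (s : ι → Fin (2 * m ^ 2 + 1)) : Prop := ∀ i, s i ≠ Fin.last (2 * m ^ 2)

theorem volume_cell_pi (m : ℕ) (s : ι → Fin (2 * m ^ 2 + 1)) (hs : Inner m s) :
    volume (cell m s) = ENNReal.ofReal (1 / m) ^ Fintype.card ι := by
  have : cell m s = Set.pi Set.univ fun i => {x : ℝ | qt m x = s i} := by
    ext z
    simp [cell]
  rw [this, volume_pi, Measure.pi_pi]
  simp_rw [volume_cell m _ (hs _)]
  simp

end Vale.Agent.P156.H877
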