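import Mathlib.Analysis.SpecialFunctions.Log.NegMulLog
import Mathlib.LinearAlgebra.Matrix.PosDef
import Mathlib.LinearAlgebra.Matrix.NonsingularInverse
import Mathlib.MeasureTheory.Constructions.Pi
import Mathlib.MeasureTheory.Measure.Lebesgue.EqHaar
import Mathlib.MeasureTheory.Measure.Prod
import Mathlib.Probability.Distributions.Gaussian.Multivariate

/-!
# Gaussian-smoothed laws on `ι → ℝ`

`gk S y` : the centred Gaussian density with covariance matrix `S`;
`dens X S z = ∫ gk S (z - x) ∂X` : the density of `X * N(0,S)`;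
`sm X S` : the law `X * N(0,S)`;
`hh X S = ∫ negMulLog (dens X S z) dz` : its differential entropy.
-/

open MeasureTheory Matrix Filter Topology

noncomputable section

namespace Vale.Agent.P156.H877

variable {ι : Type*} [Fintype ι] [DecidableEq ι]

/-- The quadratic form of `S⁻¹`. -/
def qf (S : Matrix ι ι ℝ) (y : ι → ℝ) : ℝ := y ⬝ᵥ (S⁻¹ *ᵥ y)

/-- The centred Gaussian density with covariance `S` on `ι → ℝ`. -/
def gk (S : Matrix ι ι ℝ) (y : ι → ℝ) : ℝ :=
  (√((2 * Real.pi) ^ (Fintype.card ι) * S.det))⁻¹ * Real.exp (-(y ⬝ᵥ (S⁻¹ *ᵥ y)) / 2)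

/-- The density of `X * N(0,S)`. -/
def dens (X : Measure (ι → ℝ)) (S : Matrix ι ι ℝ) (z : ι → ℝ) : ℝ :=
  ∫ x, gk S (z - x) ∂X

/-- The law `X * N(0,S)`. -/
def sm (X : Measure (ι → ℝ)) (S : Matrix ι ι ℝ) : Measure (ι → ℝ) :=
  volume.withDensity (fun z => ENNReal.ofReal (dens X S z))

/-- The differential entropy of `X * N(0,S)`. -/
def hh (X : Measure (ι → ℝ)) (S : Matrix ι ι ℝ) : ℝ :=
  ∫ z, Real.negMulLog (dens X S z)

end Vale.Agent.P156.H877
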