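import Vale.Agent.P156.H877.E2

/-!
# (E4) Gibbs inequality and the entropy of a star in terms of a reduced star
-/

open MeasureTheory Matrix Filter Topology ProbabilityTheory
open scoped ENNReal MatrixOrder

noncomputable section

set_option linter.unusedSectionVars false

namespace Vale.Agent.P156.H877

variable {ι : Type*} [Fintype ι] [DecidableEq ι] {X : Measure (ι → ℝ)} [IsProbabilityMeasure X]
  {S : Matrix ι ι ℝ}

theorem integrable_log_dens (hS : S.PosDef) (hX : Integrable (fun x => ‖x‖ ^ 2) X) :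
    Integrable (fun z => Real.log (dens X S z)) (sm X S) := by
  rw [integrable_sm hS]
  refine (integrable_negMulLog_dens hS hX).neg.congr (ae_of_all _ fun z => ?_)
  simp only [Pi.neg_apply, Real.negMulLog]
  ring

theorem hh_eq (hS : S.PosDef) : hh X S = -∫ z, Real.log (dens X S z) ∂(sm X S) := by
  rw [integral_sm hS, hh, ← integral_neg]
  refine integral_congr_ae (ae_of_all _ fun z => ?_)
  simp only [Real.negMulLog]
  ring

/-- Gibbs' inequality. -/
theorem gibbs (hS : S.PosDef) (hX : Integrable (fun x => ‖x‖ ^ 2) X) {g : (ι → ℝ) → ℝ}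
    (hg0 : ∀ z, 0 < g z) (hgi : Integrable g) (hg1 : ∫ z, g z ≤ 1)
    (hlog : Integrable (fun z => Real.log (g z)) (sm X S)) :
    hh X S ≤ -∫ z, Real.log (g z) ∂(sm X S) := by
  have := isProb_sm (X := X) hS
  have h1 : Integrable (fun z => g z / dens X S z) (sm X S) := by
    rw [integrable_sm hS]
    refine hgi.congr (ae_of_all _ fun z => ?_)
    have := (dens_pos (X := X) hS z).ne'
    field_simp
  have h2 : ∫ z, g z / dens X S z ∂(sm X S) = ∫ z, g z := by
    rw [integral_sm hS]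
    refine integral_congr_ae (ae_of_all _ fun z => ?_)
    have := (dens_pos (X := X) hS z).ne'
    field_simp
  have h3 : ∫ z, (Real.log (g z) - Real.log (dens X S z)) ∂(sm X S)
      ≤ ∫ z, (g z / dens X S z - 1) ∂(sm X S) := by
    refine integral_mono (hlog.sub (integrable_log_dens hS hX)) (h1.sub (integrable_const _))
      fun z => ?_
    have hd := dens_pos (X := X) hS z
    have := Real.log_le_sub_one_of_pos (show 0 < g z / dens X S z from div_pos (hg0 z) hd)
    rwa [Real.log_div (hg0 z).ne' hd.ne'] at this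
  rw [integral_sub hlog (integrable_log_dens hS hX), integral_sub h1 (integrable_const _), h2] at h3
  rw [hh_eq hS]
  simp at h3
  linarith

/-- Second moments of linear forms that vanish on the support. -/
theorem integral_sq_linear (hS : S.PosDef) (v : ι → ℝ) (hv : ∀ᵐ x ∂X, v ⬝ᵥ x = 0) :
    Integrable (fun z => (v ⬝ᵥ z) ^ 2) (sm X S) ∧
      ∫ z, (v ⬝ᵥ z) ^ 2 ∂(sm X S) = v ⬝ᵥ (S *ᵥ v) := by
  obtain ⟨B, hB, -⟩ := exists_sqrt hS
  have hm : Measurable fun p : (ι → ℝ) × (ι → ℝ) => p.1 + B *ᵥ p.2 := by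
    have : Continuous fun p : (ι → ℝ) × (ι → ℝ) => p.1 + B *ᵥ p.2 := by fun_prop
    exact this.measurable
  have hc : Continuous fun z : ι → ℝ => (v ⬝ᵥ z) ^ 2 := by fun_prop
  set c : ι → ℝ := v ᵥ* B with hcdef
  have hae : (fun p : (ι → ℝ) × (ι → ℝ) => (v ⬝ᵥ (p.1 + B *ᵥ p.2)) ^ 2)
      =ᵐ[X.prod (sg ι)] fun p => (∑ j, c j * p.2 j) ^ 2 := by
    have h1 : ∀ᵐ p : (ι → ℝ) × (ι → ℝ) ∂(X.prod (sg ι)), v ⬝ᵥ p.1 = 0 :=
      Measure.quasiMeasurePreserving_fst.ae hv
    filter_upwards [h1] with p hp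
    rw [dotProduct_add, hp, zero_add, Matrix.dotProduct_mulVec]
    rfl
  have hmem : ∀ j, MemLp (fun x : ι → ℝ => c j * x j) 2 (sg ι) := fun j =>
    ((memLp_id_gaussianReal (μ := 0) (v := 1) 2).comp_measurePreserving
      (measurePreserving_eval (fun _ : ι => gaussianReal 0 1) j)).const_mul (c j)
  have hsum : MemLp (fun x : ι → ℝ => ∑ j, c j * x j) 2 (sg ι) := by
    have := memLp_finsetSum Finset.univ (fun j _ => hmem j)
    exact this
  have hsq : Integrable (fun x : ι → ℝ => (∑ j, c j * x j) ^ 2) (sg ι) := hsum.integrable_sq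
  have hmean : ∫ x, (∑ j, c j * x j) ∂(sg ι) = 0 := by
    rw [integral_finsetSum _ (fun j _ => (hmem j).integrable one_le_two)]
    refine Finset.sum_eq_zero fun j _ => ?_
    rw [integral_const_mul, integral_comp_eval (μ := fun _ : ι => gaussianReal 0 1) (i := j)
      (f := fun x : ℝ => x) aestronglyMeasurable_id, integral_id_gaussianReal, mul_zero]
  have hvar : ∫ x, (∑ j, c j * x j) ^ 2 ∂(sg ι) = ∑ j, c j ^ 2 := by
    rw [← variance_of_integral_eq_zero hsum.aestronglyMeasurable.aemeasurable hmean]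
    have h6 := variance_sum_pi (μ := fun _ : ι => gaussianReal 0 1)
      (X := fun j x => c j * x) (fun j => (memLp_id_gaussianReal (μ := 0) (v := 1) 2).const_mul (c j))
    have h7 : (∑ j, fun x : ι → ℝ => c j * x j) = fun x : ι → ℝ => ∑ j, c j * x j := by
      funext x; simp
    rw [h7] at h6
    rw [h6]
    refine Finset.sum_congr rfl fun j _ => ?_
    have h8 := variance_const_mul (c j) (fun x : ℝ => x) (gaussianReal 0 1)
    have h9 : Var[fun x : ℝ => x; gaussianReal 0 1] = 1 := by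
      simp
    rw [h8, h9, mul_one]
  have hcc : ∑ j, c j ^ 2 = v ⬝ᵥ (S *ᵥ v) := by
    have : ∑ j, c j ^ 2 = c ⬝ᵥ c := by simp [dotProduct, sq]
    rw [this, ← hB, ← Matrix.mulVec_mulVec, Matrix.dotProduct_mulVec v, hcdef,
      Matrix.mulVec_transpose]
  rw [sm_eq_map B hS hB]
  constructor
  · rw [integrable_map_measure hc.aestronglyMeasurable hm.aemeasurable]
    have : Integrable (fun p : (ι → ℝ) × (ι → ℝ) => (∑ j, c j * p.2 j) ^ 2) (X.prod (sg ι)) :=
      hsq.comp_snd X
    exact this.congr hae.symm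
  · rw [integral_map hm.aemeasurable hc.aestronglyMeasurable, integral_congr_ae hae,
      ← hcc, ← hvar]
    have := integral_fun_snd (μ := X) (ν := sg ι) (fun x : ι → ℝ => (∑ j, c j * x j) ^ 2)
    simpa using this

/-! ### splitting the coordinates -/

variable {ι' κ : Type*} [Fintype ι'] [DecidableEq ι'] [Fintype κ] [DecidableEq κ]

/-- `(ι' → ℝ) × (κ → ℝ) ≃ (ι → ℝ)`. -/
def glue (e : ι' ⊕ κ ≃ ι) (p : (ι' → ℝ) × (κ → ℝ)) : ι → ℝ := fun i => Sum.elim p.1 p.2 (e.symm i)

/-- `glue` as a measurable equivalence. -/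
def glueE (e : ι' ⊕ κ ≃ ι) : (ι' → ℝ) × (κ → ℝ) ≃ᵐ (ι → ℝ) :=
  (MeasurableEquiv.sumPiEquivProdPi fun _ : ι' ⊕ κ => ℝ).symm.trans
    (MeasurableEquiv.piCongrLeft (fun _ : ι => ℝ) e)

theorem glueE_apply (e : ι' ⊕ κ ≃ ι) (p : (ι' → ℝ) × (κ → ℝ)) : glueE e p = glue e p := by
  funext i
  obtain ⟨j, rfl⟩ := e.surjective i
  simp only [glue, Equiv.symm_apply_apply, glueE, MeasurableEquiv.trans_apply]
  rw [MeasurableEquiv.coe_piCongrLeft, Equiv.piCongrLeft_apply_apply]
  rcases j with j | j <;> rfl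

theorem measurePreserving_glue (e : ι' ⊕ κ ≃ ι) :
    MeasurePreserving (glueE e) (volume : Measure ((ι' → ℝ) × (κ → ℝ))) (volume : Measure (ι → ℝ)) :=
  (volume_measurePreserving_piCongrLeft (fun _ : ι => ℝ) e).comp
    (volume_measurePreserving_sumPiEquivProdPi_symm (fun _ : ι' ⊕ κ => ℝ))

theorem glue_comp (e : ι' ⊕ κ ≃ ι) (p : (ι' → ℝ) × (κ → ℝ)) :
    glue e p ∘ (e ∘ Sum.inl) = p.1 := by
  funext i
  simp [glue]

theorem dot_glue (e : ι' ⊕ κ ≃ ι) (v : κ → ι → ℝ)
    (hv1 : ∀ a b, v a (e (Sum.inr b)) = if a = b then 1 else 0) (a : κ)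
    (p : (ι' → ℝ) × (κ → ℝ)) :
    v a ⬝ᵥ glue e p = p.2 a + ∑ i, v a (e (Sum.inl i)) * p.1 i := by
  rw [dotProduct, ← e.sum_comp, Fintype.sum_sum_type]
  simp only [glue, Equiv.symm_apply_apply, Sum.elim_inl, Sum.elim_inr, hv1]
  simp [add_comm]

/-- (E4) -/
theorem hh_le (e : ι' ⊕ κ ≃ ι) (v : κ → ι → ℝ)
    (hv1 : ∀ a b, v a (e (Sum.inr b)) = if a = b then 1 else 0)
    (hS : S.PosDef) (hX : Integrable (fun x => ‖x‖ ^ 2) X) (hv0 : ∀ᵐ x ∂X, ∀ a, v a ⬝ᵥ x = 0)
    {ρ2 : ℝ} (hρ : 0 < ρ2) (hv2 : ∀ a, v a ⬝ᵥ (S *ᵥ v a) ≤ ρ2) :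
    hh X S ≤ hh (X.map fun x => x ∘ (e ∘ Sum.inl)) (S.submatrix (e ∘ Sum.inl) (e ∘ Sum.inl))
      + (Fintype.card κ / 2) * Real.log (2 * Real.pi * Real.exp 1 * ρ2) := by
  set f : ι' → ι := e ∘ Sum.inl with hf
  have hfi : Function.Injective f := e.injective.comp Sum.inl_injective
  have hmf : Measurable fun z : ι → ℝ => z ∘ f := by
    have : Continuous fun z : ι → ℝ => z ∘ f := by fun_prop
    exact this.measurable
  have hXp : IsProbabilityMeasure (X.map fun x => x ∘ f) :=
    Measure.isProbabilityMeasure_map hmf.aemeasurable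
  set X' := X.map fun x => x ∘ f with hX'
  set S' := S.submatrix f f with hS'def
  have hS' : S'.PosDef := hS.submatrix hfi
  have hX2 : Integrable (fun x => ‖x‖ ^ 2) X' := by
    rw [hX', integrable_map_measure (by fun_prop : Continuous fun x : ι' → ℝ =>
      ‖x‖ ^ 2).aestronglyMeasurable hmf.aemeasurable]
    refine hX.mono' (by fun_prop : Continuous fun x : ι → ℝ =>
      ‖x ∘ f‖ ^ 2).aestronglyMeasurable (ae_of_all _ fun x => ?_)
    have h2 : ‖x ∘ f‖ ≤ ‖x‖ :=
      (pi_norm_le_iff_of_nonneg (norm_nonneg _)).2 fun i => norm_le_pi_norm x (f i)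
    change ‖(‖x ∘ f‖ ^ 2)‖ ≤ ‖x‖ ^ 2
    rw [Real.norm_eq_abs, abs_of_nonneg (by positivity)]
    gcongr
  have hPmap : (sm X S).map (fun z => z ∘ f) = sm X' S' := sm_map_comp hfi hS
  -- the Gaussian factor
  set vv : NNReal := ρ2.toNNReal with hvv
  have hvv0 : vv ≠ 0 := by
    rw [hvv, Ne, Real.toNNReal_eq_zero, not_le]
    exact hρ
  have hvvc : (vv : ℝ) = ρ2 := Real.coe_toNNReal _ hρ.le
  set G : ℝ → ℝ := gaussianPDFReal 0 vv with hG
  have hGc : Continuous G := by
    rw [hG]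
    unfold gaussianPDFReal
    fun_prop
  have hG0 : ∀ r, 0 < G r := fun r => gaussianPDFReal_pos 0 vv r hvv0
  have hGi : Integrable G := integrable_gaussianPDFReal 0 vv
  have hG1 : ∫ r, G r = 1 := integral_gaussianPDFReal_eq_one 0 hvv0
  have hGlog : ∀ r, Real.log (G r) = -(1 / 2) * Real.log (2 * Real.pi * ρ2) - r ^ 2 / (2 * ρ2) := by
    intro r
    rw [hG, gaussianPDFReal, Real.log_mul (by positivity) (Real.exp_pos _).ne', Real.log_exp,
      Real.log_inv, Real.log_sqrt (by positivity), hvvc]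
    ring
  set g : (ι → ℝ) → ℝ := fun z => dens X' S' (z ∘ f) * ∏ a, G (v a ⬝ᵥ z) with hg
  have hg0 : ∀ z, 0 < g z := fun z =>
    mul_pos (dens_pos hS' _) (Finset.prod_pos fun a _ => hG0 _)
  have hgc : Continuous g := by
    refine ((continuous_dens hS').comp (by fun_prop)).mul ?_
    refine continuous_finsetProd _ fun a _ => hGc.comp ?_
    fun_prop
  have hmp := measurePreserving_glue e
  set cc : κ → (ι' → ℝ) → ℝ := fun a z' => ∑ i, v a (e (Sum.inl i)) * z' i with hcc
  have hgg : ∀ p : (ι' → ℝ) × (κ → ℝ), g (glueE e p)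
      = dens X' S' p.1 * ∏ a, G (p.2 a + cc a p.1) := by
    intro p
    rw [glueE_apply, hg]
    simp only
    rw [hf, glue_comp]
    simp_rw [dot_glue e v hv1]
    rfl
  have hinner : ∀ z' : ι' → ℝ, Integrable (fun y : κ → ℝ => ∏ a, G (y a + cc a z')) := fun z' =>
    Integrable.fintype_prod (f := fun (a : κ) (r : ℝ) => G (r + cc a z'))
      (fun a => hGi.comp_add_right _)
  have hinner1 : ∀ z' : ι' → ℝ, ∫ y : κ → ℝ, ∏ a, G (y a + cc a z') = 1 := by
    intro z'
    rw [integral_fintype_prod_volume_eq_prod (fun (a : κ) (r : ℝ) => G (r + cc a z'))]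
    simp_rw [integral_add_right_eq_self G, hG1]
    simp
  have hmeasglue : Continuous fun p : (ι' → ℝ) × (κ → ℝ) =>
      dens X' S' p.1 * ∏ a, G (p.2 a + cc a p.1) := by
    refine ((continuous_dens hS').comp continuous_fst).mul ?_
    refine continuous_finsetProd _ fun a _ => hGc.comp ?_
    simp only [hcc]
    fun_prop
  have hprodint : Integrable (fun p : (ι' → ℝ) × (κ → ℝ) =>
      dens X' S' p.1 * ∏ a, G (p.2 a + cc a p.1)) := by
    rw [Measure.volume_eq_prod, integrable_prod_iff hmeasglue.aestronglyMeasurable]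
    refine ⟨ae_of_all _ fun z' => (hinner z').const_mul (dens X' S' z'), ?_⟩
    refine (integrable_dens (X := X') hS').congr (ae_of_all _ fun z' => ?_)
    have h1 : ∀ y : κ → ℝ, ‖dens X' S' z' * ∏ a, G (y a + cc a z')‖
        = dens X' S' z' * ∏ a, G (y a + cc a z') := fun y => by
      rw [Real.norm_eq_abs, abs_of_pos]
      exact mul_pos (dens_pos hS' _) (Finset.prod_pos fun a _ => hG0 _)
    simp only
    simp_rw [h1]
    rw [integral_const_mul, hinner1, mul_one]
  have hgi : Integrable g := by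
    rw [← hmp.integrable_comp_emb (glueE e).measurableEmbedding]
    refine hprodint.congr (ae_of_all _ fun p => ?_)
    exact (hgg p).symm
  have hg1 : ∫ z, g z = 1 := by
    rw [← hmp.integral_comp' g]
    simp_rw [hgg]
    rw [Measure.volume_eq_prod, integral_prod _ hprodint]
    simp only
    simp_rw [integral_const_mul, hinner1, mul_one]
    exact integral_dens hS'
  have hlog1 : Integrable (fun z => Real.log (dens X' S' (z ∘ f))) (sm X S) := by
    have h1 := integrable_log_dens (X := X') hS' hX2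
    rw [← hPmap] at h1
    exact h1.comp_measurable hmf
  have hlog2 : ∀ a, Integrable (fun z => (v a ⬝ᵥ z) ^ 2) (sm X S) := fun a =>
    (integral_sq_linear hS (v a) (hv0.mono fun x hx => hx a)).1
  have hlogg : ∀ z, Real.log (g z) = Real.log (dens X' S' (z ∘ f))
      + ∑ a, (-(1 / 2) * Real.log (2 * Real.pi * ρ2) - (v a ⬝ᵥ z) ^ 2 / (2 * ρ2)) := by
    intro z
    rw [hg]
    simp only
    rw [Real.log_mul (dens_pos hS' _).ne' (Finset.prod_pos fun a _ => hG0 _).ne',
      Real.log_prod (fun a _ => (hG0 _).ne')]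
    simp_rw [hGlog]
  have := isProb_sm (X := X) hS
  have hlog3 : ∀ a, Integrable (fun z => -(1 / 2) * Real.log (2 * Real.pi * ρ2)
      - (v a ⬝ᵥ z) ^ 2 / (2 * ρ2)) (sm X S) := fun a =>
    (integrable_const _).sub ((hlog2 a).div_const _)
  have hlog : Integrable (fun z => Real.log (g z)) (sm X S) := by
    simp_rw [hlogg]
    exact hlog1.add (integrable_finsetSum _ fun a _ => hlog3 a)
  have hmain := gibbs hS hX hg0 hgi hg1.le hlog
  refine hmain.trans ?_
  have h2 : ∫ z, Real.log (dens X' S' (z ∘ f)) ∂(sm X S) = - hh X' S' := by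
    rw [hh_eq hS', ← hPmap, integral_map hmf.aemeasurable, neg_neg]
    rw [hPmap]
    exact (integrable_log_dens (X := X') hS' hX2).aestronglyMeasurable
  have h3 : ∀ a, -((1 / 2) * Real.log (2 * Real.pi * ρ2) + 1 / 2)
      ≤ ∫ z, (-(1 / 2) * Real.log (2 * Real.pi * ρ2) - (v a ⬝ᵥ z) ^ 2 / (2 * ρ2)) ∂(sm X S) := by
    intro a
    rw [integral_sub (integrable_const _) ((hlog2 a).div_const _), integral_div,
      (integral_sq_linear hS (v a) (hv0.mono fun x hx => hx a)).2]
    have h4 : v a ⬝ᵥ (S *ᵥ v a) / (2 * ρ2) ≤ 1 / 2 := by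
      rw [div_le_div_iff₀ (by positivity) (by positivity)]
      linarith [hv2 a]
    simp
    linarith
  simp_rw [hlogg]
  rw [integral_add hlog1 (integrable_finsetSum _ fun a _ => hlog3 a), h2,
    integral_finsetSum _ (fun a _ => hlog3 a)]
  have h5 := Finset.sum_le_sum (fun a (_ : a ∈ (Finset.univ : Finset κ)) => h3 a)
  rw [Finset.sum_const, Finset.card_univ, nsmul_eq_mul] at h5
  have h6 : Real.log (2 * Real.pi * Real.exp 1 * ρ2) = Real.log (2 * Real.pi * ρ2) + 1 := by
    have : 2 * Real.pi * Real.exp 1 * ρ2 = (2 * Real.pi * ρ2) * Real.exp 1 := by ring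
    rw [this, Real.log_mul (by positivity) (Real.exp_pos _).ne', Real.log_exp]
  rw [h6]
  linarith

/-! ### the star -/

/-- The reduced star inside the full star. -/
def redIdx (q k : ℕ) (p : Option (Fin q) × Fin k) : Option (Fin (q + 1)) × Fin k :=
  (p.1.map Fin.castSucc, p.2)

/-- The splitting of the coordinates of the star. -/
def starE (q k : ℕ) : (Option (Fin q) × Fin k) ⊕ Fin k ≃ Option (Fin (q + 1)) × Fin k where
  toFun := Sum.elim (redIdx q k) (fun a => (some (Fin.last q), a))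
  invFun p := p.1.elim (Sum.inl (none, p.2))
    (fun j => Fin.lastCases (motive := fun _ => (Option (Fin q) × Fin k) ⊕ Fin k)
      (Sum.inr p.2) (fun i => Sum.inl (some i, p.2)) j)
  left_inv := by
    rintro (⟨_ | j, a⟩ | a) <;> simp [redIdx]
  right_inv := by
    rintro ⟨_ | j, a⟩
    · simp [redIdx]
    · induction j using Fin.lastCases with
      | last => simp
      | cast i => simp [redIdx]

/-- The weights of the eigenvalue equation. -/
def wv {d : ℕ} (lam : ℝ) (x : Option (Fin d)) : ℝ := x.elim (-lam) (fun _ => 1)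

/-- (E4) for stars. -/
theorem hh_star_le {q k : ℕ} (lam : ℝ) {X : Measure (Option (Fin (q + 1)) × Fin k → ℝ)}
    [IsProbabilityMeasure X] (hX : Integrable (fun x => ‖x‖ ^ 2) X)
    (hsupp : ∀ᵐ x ∂X, ∀ a, ∑ j, x (some j, a) = lam * x (none, a))
    (Sig : Matrix (Option (Fin (q + 1))) (Option (Fin (q + 1))) ℝ)
    {S : Matrix (Option (Fin (q + 1)) × Fin k) (Option (Fin (q + 1)) × Fin k) ℝ}
    (hSk : ∀ p r, S p r = if p.2 = r.2 then Sig p.1 r.1 else 0) (hS : S.PosDef)
    {ρ2 : ℝ} (hρ : 0 < ρ2) (hρ2 : ∑ x, ∑ y, wv lam x * wv lam y * Sig x y ≤ ρ2) :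
    hh X S ≤ hh (X.map fun x => x ∘ redIdx q k) (S.submatrix (redIdx q k) (redIdx q k))
      + (k / 2) * Real.log (2 * Real.pi * Real.exp 1 * ρ2) := by
  have h := hh_le (X := X) (S := S) (starE q k)
    (fun a p => if a = p.2 then wv lam p.1 else 0) ?_ hS hX ?_ hρ ?_
  · rw [Fintype.card_fin] at h
    exact h
  · intro a b
    by_cases hab : a = b <;> simp [starE, wv, hab]
  · filter_upwards [hsupp] with x hx a
    rw [dotProduct, Fintype.sum_prod_type, Fintype.sum_option]
    simp only [ite_mul, zero_mul, Finset.sum_ite_eq, Finset.mem_univ, if_true, wv,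
      Option.elim_none, Option.elim_some, one_mul]
    rw [hx a]
    ring
  · intro a
    refine le_trans (le_of_eq ?_) hρ2
    rw [dotProduct, Fintype.sum_prod_type]
    refine Finset.sum_congr rfl fun x _ => ?_
    simp only [ite_mul, zero_mul, Finset.sum_ite_eq, Finset.mem_univ, if_true]
    rw [mulVec, dotProduct, Fintype.sum_prod_type, Finset.mul_sum]
    refine Finset.sum_congr rfl fun y _ => ?_
    simp only [hSk]
    simp only [mul_ite, mul_zero, ite_mul, zero_mul]
    rw [Finset.sum_eq_single a]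
    · simp
      ring
    · intro b _ hb
      simp [Ne.symm hb]
    · simp

end Vale.Agent.P156.H877
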