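import Vale.Agent.P156.H877.E4
import Mathlib.LinearAlgebra.Matrix.Kronecker

/-!
# (E4), (E2) in the form used by the D-block
-/

open MeasureTheory Matrix Filter Topology ProbabilityTheory
open scoped ENNReal MatrixOrder Kronecker

noncomputable section

namespace Vale.Agent.P156.H877

/-- `Sig ⊗ 1`. -/
def fullS {N : Type*} (k : ℕ) (Sig : Matrix N N ℝ) : Matrix (N × Fin k) (N × Fin k) ℝ :=
  Matrix.of fun p q => if p.2 = q.2 then Sig p.1 q.1 else 0

theorem fullS_eq {N : Type*} (k : ℕ) (Sig : Matrix N N ℝ) :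
    fullS k Sig = Sig ⊗ₖ (1 : Matrix (Fin k) (Fin k) ℝ) := by
  ext p q
  simp [fullS, Matrix.kroneckerMap_apply, Matrix.one_apply]

theorem fullS_posDef {N : Type*} [Fintype N] [DecidableEq N] (k : ℕ) {Sig : Matrix N N ℝ}
    (h : Sig.PosDef) : (fullS k Sig).PosDef := by
  rw [fullS_eq]
  exact h.kronecker Matrix.PosDef.one

theorem fullS_submatrix {N N' : Type*} (k : ℕ) (Sig : Matrix N N ℝ) (r : N' → N) :
    (fullS k Sig).submatrix (fun p => (r p.1, p.2)) (fun p => (r p.1, p.2))
      = fullS k (Sig.submatrix r r) := rfl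

theorem wv_quad_pos {d : ℕ} (lam : ℝ) (Sig : Matrix (Option (Fin (d + 1))) (Option (Fin (d + 1))) ℝ)
    (h : Sig.PosDef) : 0 < ∑ x, ∑ y, wv lam x * wv lam y * Sig x y := by
  have h1 : (wv lam : Option (Fin (d + 1)) → ℝ) ≠ 0 := by
    intro h0
    have := congrFun h0 (some 0)
    simp [wv] at this
  have h2 := h.dotProduct_mulVec_pos h1
  simp only [star_trivial] at h2
  refine h2.trans_le (le_of_eq ?_)
  rw [dotProduct]
  refine Finset.sum_congr rfl fun x _ => ?_
  rw [mulVec, dotProduct, Finset.mul_sum]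
  refine Finset.sum_congr rfl fun y _ => ?_
  ring

/-- (E4), final form. -/
theorem hh_star_le' {q k : ℕ} (lam : ℝ) {X : Measure (Option (Fin (q + 1)) × Fin k → ℝ)}
    [IsProbabilityMeasure X] (hX : Integrable (fun x => ‖x‖ ^ 2) X)
    (hsupp : ∀ᵐ x ∂X, ∀ a, ∑ j, x (some j, a) = lam * x (none, a))
    (Sig : Matrix (Option (Fin (q + 1))) (Option (Fin (q + 1))) ℝ) (hSig : Sig.PosDef) :
    hh X (fullS k Sig)
      ≤ hh (X.map fun x (p : Option (Fin q) × Fin k) => x (p.1.map Fin.castSucc, p.2))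
          (fullS k (Sig.submatrix (Option.map Fin.castSucc) (Option.map Fin.castSucc)))
        + k / 2 * (Real.log (2 * Real.pi) + 1
          + Real.log (∑ x, ∑ y, wv lam x * wv lam y * Sig x y)) := by
  have hpos := wv_quad_pos lam Sig hSig
  have h := hh_star_le (k := k) lam hX hsupp Sig (S := fullS k Sig) (fun _ _ => rfl)
    (fullS_posDef k hSig) hpos le_rfl
  refine h.trans (le_of_eq ?_)
  have h6 : Real.log (2 * Real.pi * Real.exp 1 * ∑ x, ∑ y, wv lam x * wv lam y * Sig x y)
      = Real.log (2 * Real.pi) + 1 + Real.log (∑ x, ∑ y, wv lam x * wv lam y * Sig x y) := by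
    rw [Real.log_mul (by positivity) hpos.ne', Real.log_mul (by positivity) (Real.exp_pos _).ne',
      Real.log_exp]
  rw [h6]
  rfl

end Vale.Agent.P156.H877
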